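import Vale.Agent.P042.H384.Dyadic
import Vale.Agent.P042.H284.SeamF

/-!
# The end theorem of step H1.e of `P042` (helper384), in terms of sets of primes

`ι` = the primes, `ty : ι → J` their scale, `FB B` the correlation of the set `B`, `DD` the
truncated family.  `z`, `w` = moments and cumulants as functions of multisets of scales (284).
-/

set_option linter.unusedSectionVars false

namespace Vale.Agent.P042.H384

open Finset
open Vale.Agent.P042.H159 (MC)
open Vale.Agent.P042.H284 (co tyi tyi_apply tyi_degree tyi_empty sum_tyi euler co_zero)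

universe u v

section aux

variable {J : Type u} [Fintype J] [DecidableEq J] {ι : Type v} [Fintype ι] [DecidableEq ι]

lemma prod_ty (ty : ι → J) (r : J → ℝ) (B : Finset ι) :
    ∏ i ∈ B, r (ty i) = mo r (tyi ty B) := by
  unfold mo
  rw [← Finset.prod_fiberwise_of_maps_to (t := (Finset.univ : Finset J)) (g := ty)
    (fun i _ => Finset.mem_univ _)]
  refine Finset.prod_congr rfl fun j _ => ?_
  rw [tyi_apply]
  rw [Finset.prod_congr rfl (g := fun _ => r j)
    (fun i hi => by rw [(Finset.mem_filter.mp hi).2])]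
  rw [Finset.prod_const]

/-- multi-indices of order 1 and 2 -/
noncomputable def T12 (J : Type u) [Fintype J] [DecidableEq J] : Finset (J →₀ ℕ) :=
  (Finset.univ.image (fun j : J => Finsupp.single j 1)) ∪
    ((Finset.univ : Finset (J × J)).image fun p => Finsupp.single p.1 1 + Finsupp.single p.2 1)

lemma zero_notMem_T12 : (0 : J →₀ ℕ) ∉ T12 J := by
  unfold T12
  rw [Finset.mem_union, Finset.mem_image, Finset.mem_image]
  rintro (⟨j, _, h⟩ | ⟨p, _, h⟩)
  · have := congrArg Finsupp.degree h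
    simp at this
  · have := congrArg Finsupp.degree h
    simp at this

lemma mem_T12 {m : J →₀ ℕ} (h0 : m ≠ 0) (h2 : m.degree ≤ 2) : m ∈ T12 J := by
  obtain ⟨j, hj⟩ : ∃ j, m j ≠ 0 := by
    by_contra h
    push Not at h
    exact h0 (Finsupp.ext h)
  have h1 : Finsupp.single j 1 ≤ m := by
    rw [Finsupp.single_le_iff]; omega
  obtain ⟨m', rfl⟩ := le_iff_exists_add.mp h1
  rw [map_add, Finsupp.degree_single] at h2
  unfold T12
  rw [Finset.mem_union, Finset.mem_image, Finset.mem_image]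
  by_cases hm : m' = 0
  · left; exact ⟨j, Finset.mem_univ _, by rw [hm, add_zero]⟩
  · right
    obtain ⟨i, hi⟩ : ∃ j, m' j ≠ 0 := by
      by_contra h
      push Not at h
      exact hm (Finsupp.ext h)
    have h3 : Finsupp.single i 1 ≤ m' := by
      rw [Finsupp.single_le_iff]; omega
    obtain ⟨m'', rfl⟩ := le_iff_exists_add.mp h3
    rw [map_add, Finsupp.degree_single] at h2
    have h4 : m'' = 0 := by
      rw [← Finsupp.degree_eq_zero_iff]; omega
    exact ⟨(j, i), Finset.mem_univ _, by rw [h4, add_zero]⟩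

lemma mo_single (r : J → ℝ) (j : J) : mo r (Finsupp.single j 1) = r j := by
  unfold mo
  rw [Finset.prod_eq_single j]
  · simp
  · intro i _ hi
    rw [Finsupp.single_eq_of_ne hi, pow_zero]
  · intro h; exact absurd (Finset.mem_univ _) h

lemma sum_T12_le (f : (J →₀ ℕ) → ℝ) (hf : ∀ m, 0 ≤ f m) :
    ∑ m ∈ T12 J, f m ≤ ∑ j, f (Finsupp.single j 1)
      + ∑ i, ∑ j, f (Finsupp.single i 1 + Finsupp.single j 1) := by
  unfold T12
  have h1 := Finset.sum_union_inter (f := f)
    (s₁ := Finset.univ.image (fun j : J => Finsupp.single j 1))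
    (s₂ := (Finset.univ : Finset (J × J)).image
      fun p => Finsupp.single p.1 1 + Finsupp.single p.2 1)
  have h2 : 0 ≤ ∑ m ∈ (Finset.univ.image (fun j : J => Finsupp.single j 1)) ∩
      ((Finset.univ : Finset (J × J)).image
        fun p => Finsupp.single p.1 1 + Finsupp.single p.2 1), f m :=
    Finset.sum_nonneg fun m _ => hf m
  have h3 : ∑ m ∈ Finset.univ.image (fun j : J => (Finsupp.single j 1 : J →₀ ℕ)), f m
      ≤ ∑ j, f (Finsupp.single j 1) := Finset.sum_image_le_of_nonneg fun i _ => hf i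
  have h4 : ∑ m ∈ (Finset.univ : Finset (J × J)).image
      (fun p => (Finsupp.single p.1 1 + Finsupp.single p.2 1 : J →₀ ℕ)), f m
      ≤ ∑ i, ∑ j, f (Finsupp.single i 1 + Finsupp.single j 1) := by
    rw [← Fintype.sum_prod_type']
    exact Finset.sum_image_le_of_nonneg fun i _ => hf i
  linarith

/-- (T) of `interp` from the bounds on the orders 1 and 2 -/
lemma T12_bound (W : (J →₀ ℕ) → ℝ) (B : J → ℝ)
    (h1 : ∀ j, |W (Finsupp.single j 1)| ≤ B j)
    (h2 : ∀ j, ∑ i, |W (Finsupp.single i 1 + Finsupp.single j 1)| ≤ B j)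
    (r : J → ℝ) (hr : ∀ j, 0 ≤ r j) :
    ∑ m ∈ T12 J, |W m| * mo r m ≤ ∑ j, B j * (r j + r j ^ 2) := by
  refine (sum_T12_le (fun m => |W m| * mo r m)
    fun m => mul_nonneg (abs_nonneg _) (mo_nonneg hr m)).trans ?_
  have e1 : ∑ j, |W (Finsupp.single j 1)| * mo r (Finsupp.single j 1) ≤ ∑ j, B j * r j := by
    refine Finset.sum_le_sum fun j _ => ?_
    rw [mo_single]
    exact mul_le_mul_of_nonneg_right (h1 j) (hr j)
  have e2 : ∑ i, ∑ j, |W (Finsupp.single i 1 + Finsupp.single j 1)| *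
      mo r (Finsupp.single i 1 + Finsupp.single j 1) ≤ ∑ j, B j * r j ^ 2 := by
    have e3 : ∀ i j, |W (Finsupp.single i 1 + Finsupp.single j 1)| *
        mo r (Finsupp.single i 1 + Finsupp.single j 1)
        ≤ |W (Finsupp.single j 1 + Finsupp.single i 1)| * r i ^ 2 / 2
          + |W (Finsupp.single i 1 + Finsupp.single j 1)| * r j ^ 2 / 2 := by
      intro i j
      rw [mo_add, mo_single, mo_single, add_comm (Finsupp.single j 1) (Finsupp.single i 1)]
      have h3 : r i * r j ≤ r i ^ 2 / 2 + r j ^ 2 / 2 := by nlinarith [sq_nonneg (r i - r j)]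
      have h4 := mul_le_mul_of_nonneg_left h3
        (abs_nonneg (W (Finsupp.single i 1 + Finsupp.single j 1)))
      linarith
    refine (Finset.sum_le_sum fun i _ => Finset.sum_le_sum fun j _ => e3 i j).trans ?_
    simp only [Finset.sum_add_distrib]
    have e4 : ∑ i, ∑ j, |W (Finsupp.single j 1 + Finsupp.single i 1)| * r i ^ 2 / 2
        ≤ ∑ i, B i * r i ^ 2 / 2 := by
      refine Finset.sum_le_sum fun i _ => ?_
      rw [← Finset.sum_div, ← Finset.sum_mul]
      have := mul_le_mul_of_nonneg_right (h2 i) (sq_nonneg (r i))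
      linarith
    have e5 : ∑ i, ∑ j, |W (Finsupp.single i 1 + Finsupp.single j 1)| * r j ^ 2 / 2
        ≤ ∑ i, B i * r i ^ 2 / 2 := by
      rw [Finset.sum_comm]
      refine Finset.sum_le_sum fun i _ => ?_
      rw [← Finset.sum_div, ← Finset.sum_mul]
      have := mul_le_mul_of_nonneg_right (h2 i) (sq_nonneg (r i))
      linarith
    have e6 : ∑ j, B j * r j ^ 2 = ∑ i, B i * r i ^ 2 / 2 + ∑ i, B i * r i ^ 2 / 2 := by
      rw [← Finset.sum_add_distrib]
      exact Finset.sum_congr rfl fun i _ => by ring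
    linarith
  have e7 : ∑ j, B j * (r j + r j ^ 2) = ∑ j, B j * r j + ∑ j, B j * r j ^ 2 := by
    rw [← Finset.sum_add_distrib]
    exact Finset.sum_congr rfl fun j _ => by ring
  linarith

lemma T12_total (W : (J →₀ ℕ) → ℝ) (B : J → ℝ)
    (h1 : ∀ j, |W (Finsupp.single j 1)| ≤ B j)
    (h2 : ∀ j, ∑ i, |W (Finsupp.single i 1 + Finsupp.single j 1)| ≤ B j) :
    ∑ m ∈ T12 J, |W m| ≤ 2 * ∑ j, B j := by
  have := T12_bound W B h1 h2 (fun _ => 1) (fun _ => zero_le_one)
  simp only [mo_one, mul_one, one_pow] at this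
  rw [Finset.mul_sum]
  refine this.trans (le_of_eq (Finset.sum_congr rfl fun j _ => by ring))

end aux

/-- **End theorem of H1.e** -/
theorem end_sets {K c cr C1 : ℝ} (hK : 0 ≤ K) (hc : 0 < c) (hcr0 : 0 < cr)
    (hcr : cr ≤ 1 / 2) (hC1 : 0 ≤ C1) :
    ∃ g0 : ℝ, 0 < g0 ∧ ∃ l0 : ℕ, ∀ {J : Type u} [Fintype J] [DecidableEq J] (sc : J → ℕ)
      (l1 b0 : ℕ) (g : ℝ) {ι : Type v} [Fintype ι] [DecidableEq ι] (ty : ι → J)
      (FB : Finset ι → ℝ) (DD : Finset (Finset ι)) (z w : Multiset J → ℝ),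
      Function.Injective sc → (∀ j, l0 ≤ sc j) → (∀ j, sc j ≤ l1) → 0 ≤ g → g ≤ g0 →
      C1 + 3 + ((l1 : ℝ) + 1) * (1 + Real.exp ((g * ((l1 : ℝ) * Real.log 2) + 6) / cr)) ≤ b0 →
      (∀ j, ((Finset.univ.filter (fun i => ty i = j)).card : ℝ)
        ≤ Real.exp ((sc j : ℝ) * Real.log 2)) →
      MC z w →
      (∀ a : J →₀ ℕ, a.degree ≤ b0 → co z a
        = ∑ B ∈ (Finset.univ : Finset ι).powerset.filter (fun B => tyi ty B = a), FB B) →
      FB ∅ = 1 → (∀ B : Finset ι, B.card ≤ b0 → B ∈ DD) →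
      (∀ r : J → ℝ, (∀ j, 0 ≤ r j) → (∀ j, r j ≤ Real.exp (cr * ((sc j : ℝ) * Real.log 2))) →
        ∑ B ∈ DD, |FB B| * ∏ i ∈ B, r (ty i)
          ≤ Real.exp (C1 + ∑ j, Real.exp (g * ((sc j : ℝ) * Real.log 2)) * r j ^ 2)) →
      (∀ j, |co w (Finsupp.single j 1)| ≤ Real.exp (g * ((sc j : ℝ) * Real.log 2))) →
      (∀ j, ∑ i, |co w (Finsupp.single i 1 + Finsupp.single j 1)|
        ≤ Real.exp (g * ((sc j : ℝ) * Real.log 2))) →
      (∀ a : J →₀ ℕ, 3 ≤ a.degree → a.degree ≤ b0 →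
        |co w a| ≤ Real.exp (K * a.degree * Real.log (lf (fun j => (sc j : ℝ) * Real.log 2) a)
          - c * lf (fun j => (sc j : ℝ) * Real.log 2) a)) →
      1 / 2 * Real.exp (-(2 * ∑ j, Real.exp (g * ((sc j : ℝ) * Real.log 2))))
        ≤ ∑ B ∈ DD, FB B := by
  obtain ⟨g0, hg0, l0, H⟩ := interp_dyadic.{u} hK hc hcr0 hcr hC1
  refine ⟨g0, hg0, l0, ?_⟩
  intro J _ _ sc l1 b0 g ι _ _ ty FB DD z w hinj hsc0 hsc1 hg hgg hb0 hcard hMC hz hFB0 hDD hF1
    hP1 hP2 hD
  classical
  set F : (J →₀ ℕ) → ℝ := fun a => ∑ B ∈ DD.filter (fun B => tyi ty B = a), FB B with hF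
  have hFz : ∀ a : J →₀ ℕ, a.degree ≤ b0 → F a = co z a := by
    intro a ha
    rw [hz a ha, hF]
    refine Finset.sum_congr ?_ fun _ _ => rfl
    ext B
    rw [Finset.mem_filter, Finset.mem_filter]
    constructor
    · rintro ⟨_, h⟩
      exact ⟨Finset.mem_powerset.mpr (Finset.subset_univ _), h⟩
    · rintro ⟨_, h⟩
      refine ⟨hDD B ?_, h⟩
      rw [← tyi_degree ty B, h]; exact ha
  have hmain := H sc l1 b0 g F (co w) (DD.image (tyi ty)) (T12 J) hinj hsc0 hsc1 hg hgg hb0
    ?_ ?_ ?_ ?_ zero_notMem_T12 ?_ ?_ ?_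
  · have h1 : ∑ a ∈ DD.image (tyi ty), F a = ∑ B ∈ DD, FB B := (sum_tyi ty DD FB).symm
    rw [h1] at hmain
    refine le_trans ?_ hmain
    refine mul_le_mul_of_nonneg_left (Real.exp_le_exp.mpr ?_) (by norm_num)
    exact neg_le_neg (T12_total (co w) _ hP1 hP2)
  · -- `F 0 = 1`
    have h1 : DD.filter (fun B => tyi ty B = 0) = {∅} := by
      ext B
      rw [Finset.mem_filter, Finset.mem_singleton]
      constructor
      · rintro ⟨_, h⟩
        rw [← Finset.card_eq_zero, ← tyi_degree ty B, h, map_zero]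
      · rintro rfl
        exact ⟨hDD _ (by simp), tyi_empty ty⟩
    show ∑ B ∈ DD.filter (fun B => tyi ty B = 0), FB B = 1
    rw [h1, Finset.sum_singleton, hFB0]
  · intro a ha
    refine Finset.sum_eq_zero fun B hB => ?_
    exfalso
    rw [Finset.mem_filter] at hB
    exact ha (Finset.mem_image.mpr ⟨B, hB.1, hB.2⟩)
  · intro a ha j
    obtain ⟨B, hB, _⟩ := Finset.exists_ne_zero_of_sum_ne_zero ha
    rw [Finset.mem_filter] at hB
    rw [← hB.2]
    refine le_trans ?_ (hcard j)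
    exact_mod_cast H284.tyi_le ty B j
  · intro a ha
    rw [hFz a ha, euler hMC a]
    refine Finset.sum_congr rfl fun x hx => ?_
    rw [HasAntidiagonal.mem_antidiagonal] at hx
    rw [hFz x.2]
    have : a.degree = x.1.degree + x.2.degree := by rw [← hx, map_add]
    omega
  · intro r hr0 hr1 a
    have h1 : |F a| * mo r a ≤ ∑ B ∈ DD.filter (fun B => tyi ty B = a),
        |FB B| * ∏ i ∈ B, r (ty i) := by
      refine (mul_le_mul_of_nonneg_right (Finset.abs_sum_le_sum_abs _ _) (mo_nonneg hr0 a)).trans ?_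
      rw [Finset.sum_mul]
      refine Finset.sum_le_sum fun B hB => ?_
      rw [prod_ty, (Finset.mem_filter.mp hB).2]
    refine h1.trans (le_trans ?_ (hF1 r hr0 hr1))
    refine Finset.sum_le_sum_of_subset_of_nonneg (Finset.filter_subset _ _) fun B _ _ => ?_
    exact mul_nonneg (abs_nonneg _) (Finset.prod_nonneg fun i _ => hr0 _)
  · intro r hr0
    exact T12_bound (co w) _ hP1 hP2 r hr0
  · intro m hm hmT hmb
    refine hD m ?_ hmb
    by_contra h
    push Not at h
    exact hmT (mem_T12 hm (by omega))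

end Vale.Agent.P042.H384
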