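import Vale.Agent.P042.H384.Ex

/-!
# Real-variable lemmas for the interpolation step (helper384, step H1.e of `P042`)
-/

set_option linter.unusedSectionVars false

namespace Vale.Agent.P042.H384

open Finset

variable {J : Type*} [Fintype J] [DecidableEq J]

/-- `x log x` on naturals -/
noncomputable def xl (k : ℕ) : ℝ := (k : ℝ) * Real.log k

/-- `∑ a_j log a_j` -/
noncomputable def Lf (a : J →₀ ℕ) : ℝ := ∑ j, xl (a j)

/-- `∑ a_j ℓ_j` -/
noncomputable def lf (ell : J → ℝ) (a : J →₀ ℕ) : ℝ := ∑ j, (a j : ℝ) * ell j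

lemma xl_nonneg (k : ℕ) : 0 ≤ xl k := by
  unfold xl
  rcases Nat.eq_zero_or_pos k with h | h
  · simp [h]
  · exact mul_nonneg (Nat.cast_nonneg _) (Real.log_nonneg (by exact_mod_cast h))

lemma xl_add_le (m u : ℕ) : xl m + xl u ≤ xl (m + u) := by
  unfold xl
  rcases Nat.eq_zero_or_pos m with hm | hm
  · simp [hm]
  rcases Nat.eq_zero_or_pos u with hu | hu
  · simp [hu]
  have hm' : (0 : ℝ) < m := by exact_mod_cast hm
  have hu' : (0 : ℝ) < u := by exact_mod_cast hu
  have h1 : Real.log m ≤ Real.log ((m + u : ℕ) : ℝ) :=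
    Real.log_le_log hm' (by push_cast; linarith)
  have h2 : Real.log u ≤ Real.log ((m + u : ℕ) : ℝ) :=
    Real.log_le_log hu' (by push_cast; linarith)
  have h3 : ((m + u : ℕ) : ℝ) = m + u := by push_cast; ring
  rw [h3] at h1 h2 ⊢
  nlinarith [mul_le_mul_of_nonneg_left h1 hm'.le, mul_le_mul_of_nonneg_left h2 hu'.le]

lemma le_xl_add (m u : ℕ) :
    xl (m + u) - ((m : ℝ) + u) * Real.log 2 ≤ xl m + xl u := by
  unfold xl
  have key : ∀ k : ℕ, ∀ s : ℝ, 0 < s → (k : ℝ) * Real.log s + k - s ≤ (k : ℝ) * Real.log k := by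
    intro k s hs
    rcases Nat.eq_zero_or_pos k with hk | hk
    · simp [hk]; exact hs.le
    · have hk' : (0 : ℝ) < k := by exact_mod_cast hk
      have h := Real.log_le_sub_one_of_pos (div_pos hs hk')
      rw [Real.log_div hs.ne' hk'.ne'] at h
      have h2 : (k : ℝ) * (Real.log s - Real.log k) ≤ k * (s / k - 1) :=
        mul_le_mul_of_nonneg_left h hk'.le
      have h3 : (k : ℝ) * (s / k - 1) = s - k := by field_simp
      rw [h3] at h2
      linarith
  rcases Nat.eq_zero_or_pos (m + u) with h0 | h0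
  · have hm : m = 0 := by omega
    have hu : u = 0 := by omega
    simp [hm, hu]
  · have h0' : (0 : ℝ) < ((m + u : ℕ) : ℝ) := by exact_mod_cast h0
    have hs : (0 : ℝ) < ((m + u : ℕ) : ℝ) / 2 := by linarith
    have h1 := key m _ hs
    have h2 := key u _ hs
    rw [Real.log_div h0'.ne' two_ne_zero] at h1 h2
    have h3 : ((m + u : ℕ) : ℝ) = m + u := by push_cast; ring
    rw [h3] at h1 h2 ⊢
    nlinarith

lemma Lf_add_le (m u : J →₀ ℕ) : Lf m + Lf u ≤ Lf (m + u) := by
  unfold Lf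
  rw [← Finset.sum_add_distrib]
  exact Finset.sum_le_sum fun j _ => xl_add_le _ _

lemma lf_add (ell : J → ℝ) (m u : J →₀ ℕ) : lf ell (m + u) = lf ell m + lf ell u := by
  unfold lf
  rw [← Finset.sum_add_distrib]
  refine Finset.sum_congr rfl fun j _ => ?_
  rw [Finsupp.add_apply]; push_cast; ring

lemma exp_lf (ell : J → ℝ) (a : J →₀ ℕ) : Real.exp (lf ell a) = mo (fun j => Real.exp (ell j)) a := by
  unfold lf mo
  rw [Real.exp_sum]
  refine Finset.prod_congr rfl fun j _ => ?_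
  rw [← Real.exp_nat_mul]

lemma exp_neg_lf (ell : J → ℝ) (a : J →₀ ℕ) (c : ℝ) :
    Real.exp (-(c * lf ell a)) = mo (fun j => Real.exp (-(c * ell j))) a := by
  rw [← exp_lf]
  congr 1
  unfold lf
  rw [Finset.mul_sum, ← Finset.sum_neg_distrib]
  refine Finset.sum_congr rfl fun j _ => ?_
  ring

/-- a finite sum of monomials is at most `∏ (1 - y_j)⁻¹` -/
lemma sum_mo_le_prod {y : J → ℝ} (hy0 : ∀ j, 0 ≤ y j) (hy1 : ∀ j, y j < 1)
    (A : Finset (J →₀ ℕ)) : ∑ a ∈ A, mo y a ≤ ∏ j, (1 - y j)⁻¹ := by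
  classical
  set N := A.sup (fun a => a.degree) + 1 with hN
  have hlt : ∀ a ∈ A, ∀ j, a j < N := by
    intro a ha j
    have h1 := Finset.le_sup (f := fun a : J →₀ ℕ => a.degree) ha
    have h2 := Finsupp.le_degree j a
    omega
  have h1 : ∑ a ∈ A, mo y a = ∑ f ∈ A.image (fun a : J →₀ ℕ => (a : J → ℕ)),
      ∏ j, y j ^ f j := by
    rw [Finset.sum_image]
    · rfl
    · intro a _ b _ hab
      exact DFunLike.coe_injective hab
  rw [h1]
  have h2 : A.image (fun a : J →₀ ℕ => (a : J → ℕ)) ⊆ Fintype.piFinset (fun _ : J => range N) := by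
    intro f hf
    rw [Finset.mem_image] at hf
    obtain ⟨a, ha, rfl⟩ := hf
    rw [Fintype.mem_piFinset]
    intro j
    rw [Finset.mem_range]
    exact hlt a ha j
  refine (Finset.sum_le_sum_of_subset_of_nonneg h2
    fun f _ _ => Finset.prod_nonneg fun j _ => pow_nonneg (hy0 j) _).trans ?_
  rw [← Finset.prod_univ_sum (fun _ : J => range N) (fun j k => y j ^ k)]
  refine Finset.prod_le_prod (fun j _ => Finset.sum_nonneg fun k _ => pow_nonneg (hy0 j) _)
    fun j _ => ?_
  have h3 : (1 - y j) * ∑ k ∈ range N, y j ^ k ≤ 1 := by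
    rw [mul_neg_geom_sum]
    have := pow_nonneg (hy0 j) N
    linarith
  rw [← one_div, le_div_iff₀ (by linarith [hy1 j])]
  linarith

lemma one_sub_sum_le_prod {y : J → ℝ} (s : Finset J) (hy0 : ∀ j, 0 ≤ y j) (hy1 : ∀ j, y j ≤ 1) :
    1 - ∑ j ∈ s, y j ≤ ∏ j ∈ s, (1 - y j) := by
  classical
  induction s using Finset.induction_on with
  | empty => simp
  | insert a s ha ih =>
    rw [Finset.sum_insert ha, Finset.prod_insert ha]
    have h1 : ∏ j ∈ s, (1 - y j) ≤ 1 :=
      Finset.prod_le_one (fun j _ => by linarith [hy1 j]) (fun j _ => by linarith [hy0 j])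
    nlinarith [hy0 a, hy1 a]

/-- a finite sum of monomials over nonzero multi-indices -/
lemma sum_mo_le {y : J → ℝ} (hy0 : ∀ j, 0 ≤ y j) {s : ℝ} (hs : ∑ j, y j ≤ s) (hs2 : s ≤ 1 / 2)
    (A : Finset (J →₀ ℕ)) (hA : 0 ∉ A) : ∑ a ∈ A, mo y a ≤ 2 * s := by
  classical
  have hle : ∀ j, y j ≤ 1 / 2 := fun j =>
    (Finset.single_le_sum (fun i _ => hy0 i) (Finset.mem_univ j)).trans (hs.trans hs2)
  have h1 := sum_mo_le_prod hy0 (fun j => (hle j).trans_lt (by norm_num)) (insert 0 A)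
  rw [Finset.sum_insert hA] at h1
  have h0 : mo y (0 : J →₀ ℕ) = 1 := by simp [mo]
  rw [h0] at h1
  have h2 := one_sub_sum_le_prod (y := y) Finset.univ hy0 (fun j => (hle j).trans (by norm_num))
  have hs0 : 0 ≤ ∑ j, y j := Finset.sum_nonneg fun j _ => hy0 j
  have h3 : (∏ j, (1 - y j)⁻¹) ≤ 1 + 2 * s := by
    rw [Finset.prod_inv_distrib, ← one_div]
    rw [div_le_iff₀ (by linarith)]
    nlinarith
  linarith

lemma card_antidiagonal_le (a : J →₀ ℕ) :
    ((HasAntidiagonal.antidiagonal a).card : ℝ) ≤ Real.exp (∑ j, (a j : ℝ) * Real.log 2) := by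
  classical
  have h1 : (HasAntidiagonal.antidiagonal a).card ≤ (Finset.Iic a).card := by
    refine Finset.card_le_card_of_injOn (fun x => x.1) ?_ ?_
    · intro x hx
      rw [Finset.mem_coe, HasAntidiagonal.mem_antidiagonal] at hx
      rw [Finset.mem_coe, Finset.mem_Iic, ← hx]
      exact le_self_add
    · intro x hx y hy hxy
      rw [Finset.mem_coe, HasAntidiagonal.mem_antidiagonal] at hx hy
      simp only at hxy
      ext1
      · exact hxy
      · rw [hxy] at hx
        exact add_left_cancel (hx.trans hy.symm)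
  have h2 : (Finset.Iic a).card ≤ ∏ j, 2 ^ (a j) := by
    rw [Finsupp.card_Iic]
    calc ∏ i ∈ a.support, (Finset.Iic (a i)).card ≤ ∏ i ∈ a.support, 2 ^ (a i) := by
          refine Finset.prod_le_prod' fun i _ => ?_
          rw [Nat.card_Iic]
          exact Nat.lt_two_pow_self
      _ ≤ ∏ j, 2 ^ (a j) := by
          refine Finset.prod_le_prod_of_subset_of_one_le' (Finset.subset_univ _) fun i _ _ => ?_
          exact Nat.one_le_two_pow
  rw [Real.exp_sum]
  have h3 : ∀ j : J, Real.exp ((a j : ℝ) * Real.log 2) = 2 ^ (a j) := by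
    intro j
    rw [Real.exp_nat_mul, Real.exp_log two_pos]
  rw [Finset.prod_congr rfl fun j _ => h3 j]
  exact_mod_cast h1.trans h2

/-- from a radius to a coefficient bound -/
lemma radius_bound {f C cr : ℝ} {r d g : J → ℝ} (a : J →₀ ℕ) (hr : ∀ j, a j ≠ 0 → 0 < r j)
    (h : |f| * mo r a ≤ Real.exp (C + ∑ j, d j))
    (hlog : ∀ j, a j ≠ 0 → cr * Real.log (a j) - g j ≤ Real.log (r j)) :
    |f| ≤ Real.exp (C + ∑ j, (d j + (a j : ℝ) * g j - cr * xl (a j))) := by
  have hmo : Real.exp (∑ j, (cr * xl (a j) - (a j : ℝ) * g j)) ≤ mo r a := by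
    unfold mo
    rw [Real.exp_sum]
    refine Finset.prod_le_prod (fun j _ => (Real.exp_pos _).le) fun j _ => ?_
    by_cases hj : a j = 0
    · simp [hj, xl]
    · have h1 := hlog j hj
      have h2 : r j ^ a j = Real.exp ((a j : ℝ) * Real.log (r j)) := by
        rw [Real.exp_nat_mul, Real.exp_log (hr j hj)]
      rw [h2]
      refine Real.exp_le_exp.mpr ?_
      have h3 : (0 : ℝ) ≤ a j := Nat.cast_nonneg _
      unfold xl
      nlinarith [mul_le_mul_of_nonneg_left h1 h3]
  have h1 : |f| * Real.exp (∑ j, (cr * xl (a j) - (a j : ℝ) * g j)) ≤ Real.exp (C + ∑ j, d j) :=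
    (mul_le_mul_of_nonneg_left hmo (abs_nonneg _)).trans h
  have h2 : |f| ≤ Real.exp (C + ∑ j, d j) / Real.exp (∑ j, (cr * xl (a j) - (a j : ℝ) * g j)) := by
    rwa [le_div_iff₀ (Real.exp_pos _)]
  refine h2.trans (le_of_eq ?_)
  rw [← Real.exp_sub]
  congr 1
  rw [add_sub_assoc, ← Finset.sum_sub_distrib]
  congr 1
  refine Finset.sum_congr rfl fun j _ => ?_
  ring

/-- sup over the order of one scale -/
lemma sup_order {cr G : ℝ} (hcr : 0 < cr) (hcr1 : cr ≤ 1) (k : ℕ) :
    (k : ℝ) * G - cr * xl k ≤ Real.exp (G / cr) := by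
  unfold xl
  rcases Nat.eq_zero_or_pos k with hk | hk
  · simp [hk]; exact (Real.exp_pos _).le
  have hk' : (0 : ℝ) < k := by exact_mod_cast hk
  have h1 := Real.add_one_le_exp (G / cr - Real.log k)
  have h2 : Real.exp (G / cr - Real.log k) = Real.exp (G / cr) / k := by
    rw [Real.exp_sub, Real.exp_log hk']
  rw [h2] at h1
  have h3 : (k : ℝ) * (G / cr - Real.log k + 1) ≤ Real.exp (G / cr) := by
    have := mul_le_mul_of_nonneg_left h1 hk'.le
    rwa [mul_div_cancel₀ _ hk'.ne'] at this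
  have h4 : (k : ℝ) * G - cr * (k * Real.log k) = cr * (k * (G / cr - Real.log k)) := by
    field_simp
  rw [h4]
  have h5 : (k : ℝ) * (G / cr - Real.log k) ≤ Real.exp (G / cr) := by nlinarith
  have h6 : 0 < Real.exp (G / cr) := Real.exp_pos _
  by_cases hs : 0 ≤ (k : ℝ) * (G / cr - Real.log k)
  · nlinarith
  · push Not at hs
    nlinarith

end Vale.Agent.P042.H384
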