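import Vale.Agent.P042.H384.Gibbs

/-!
# The interpolation theorem for dyadic scales (helper384, step H1.e of `P042`)

All numerical hypotheses of `interp` are discharged for scales `n_j = 2^{sc j}`.
-/

set_option linter.unusedSectionVars false

namespace Vale.Agent.P042.H384

open Finset

universe u

/-- geometric sums over injective families of exponents -/
lemma geom_small {d e : ℝ} (hd : 0 < d) (he : 0 < e) :
    ∃ l0 : ℕ, ∀ l2 : ℕ, l0 ≤ l2 → ∀ {J : Type u} [Fintype J] (sc : J → ℕ),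
      Function.Injective sc → (∀ j, l2 ≤ sc j) →
      ∑ j, Real.exp (-(d * ((sc j : ℝ) * Real.log 2))) ≤ e := by
  have hl2 : 0 < Real.log 2 := Real.log_pos (by norm_num)
  set x := Real.exp (-(d * Real.log 2)) with hx
  have hx0 : 0 < x := Real.exp_pos _
  have hx1 : x < 1 := by rw [hx, Real.exp_lt_one_iff]; nlinarith
  have h1x : 0 < 1 - x := by linarith
  obtain ⟨l0, hl0⟩ := exists_pow_lt_of_lt_one (show 0 < e * (1 - x) by positivity) hx1
  refine ⟨l0, fun l2 hl02 J _ sc hinj hsc => ?_⟩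
  classical
  have h1 : ∀ j, Real.exp (-(d * ((sc j : ℝ) * Real.log 2))) = x ^ l0 * x ^ (sc j - l0) := by
    intro j
    rw [← pow_add, Nat.add_sub_cancel' (hl02.trans (hsc j)), hx, ← Real.exp_nat_mul]
    congr 1
    ring
  rw [Finset.sum_congr rfl fun j _ => h1 j, ← Finset.mul_sum]
  have h2 : ∑ j, x ^ (sc j - l0) ≤ (1 - x)⁻¹ := by
    have e1 : ∑ j, x ^ (sc j - l0) = ∑ k ∈ Finset.univ.image (fun j => sc j - l0), x ^ k := by
      rw [Finset.sum_image]
      intro i _ j _ hij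
      simp only at hij
      refine hinj ?_
      have := hl02.trans (hsc i)
      have := hl02.trans (hsc j)
      omega
    rw [e1, ← tsum_geometric_of_lt_one hx0.le hx1]
    exact (summable_geometric_of_lt_one hx0.le hx1).sum_le_tsum _ fun k _ => pow_nonneg hx0.le k
  calc x ^ l0 * ∑ j, x ^ (sc j - l0) ≤ (e * (1 - x)) * (1 - x)⁻¹ :=
        mul_le_mul hl0.le h2 (Finset.sum_nonneg fun j _ => pow_nonneg hx0.le _) (by positivity)
    _ = e := by field_simp

/-- `log x ≤ d x` for large `x` -/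
lemma log_small {d : ℝ} (hd : 0 < d) :
    ∃ l0 : ℕ, ∀ l : ℕ, l0 ≤ l → 2 ≤ (l : ℝ) * Real.log 2 ∧
      Real.log ((l : ℝ) * Real.log 2) ≤ d * ((l : ℝ) * Real.log 2) := by
  have hl2 : 0 < Real.log 2 := Real.log_pos (by norm_num)
  have h1 : ∀ᶠ x : ℝ in Filter.atTop, ‖Real.log x‖ ≤ d * ‖x‖ :=
    (Real.isLittleO_log_id_atTop.def hd)
  have ht : Filter.Tendsto (fun l : ℕ => (l : ℝ) * Real.log 2) Filter.atTop Filter.atTop :=
    Filter.Tendsto.atTop_mul_const hl2 tendsto_natCast_atTop_atTop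
  have h2 := ht.eventually (h1.and (Filter.eventually_ge_atTop 2))
  rw [Filter.eventually_atTop] at h2
  obtain ⟨l0, hl0⟩ := h2
  refine ⟨l0, fun l hl => ?_⟩
  obtain ⟨h3, h4⟩ := hl0 l hl
  refine ⟨h4, ?_⟩
  rw [Real.norm_eq_abs, Real.norm_eq_abs] at h3
  have h5 : |(l : ℝ) * Real.log 2| = (l : ℝ) * Real.log 2 := abs_of_nonneg (by linarith)
  rw [h5] at h3
  exact (le_abs_self _).trans h3

/-- **interpolation, dyadic scales**: no numerical hypothesis left except the size of `b0` -/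
theorem interp_dyadic {K c cr C1 : ℝ} (hK : 0 ≤ K) (hc : 0 < c) (hcr0 : 0 < cr)
    (hcr : cr ≤ 1 / 2) (hC1 : 0 ≤ C1) :
    ∃ g0 : ℝ, 0 < g0 ∧ ∃ l0 : ℕ, ∀ {J : Type u} [Fintype J] [DecidableEq J] (sc : J → ℕ)
      (l1 b0 : ℕ) (g : ℝ) (F W : (J →₀ ℕ) → ℝ) (S T : Finset (J →₀ ℕ)),
      Function.Injective sc → (∀ j, l0 ≤ sc j) → (∀ j, sc j ≤ l1) → 0 ≤ g → g ≤ g0 →
      C1 + 3 + ((l1 : ℝ) + 1) * (1 + Real.exp ((g * ((l1 : ℝ) * Real.log 2) + 6) / cr)) ≤ b0 →
      F 0 = 1 → (∀ a, a ∉ S → F a = 0) →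
      (∀ a : J →₀ ℕ, F a ≠ 0 → ∀ j, (a j : ℝ) ≤ Real.exp ((sc j : ℝ) * Real.log 2)) →
      (∀ a : J →₀ ℕ, a.degree ≤ b0 → (a.degree : ℝ) * F a
        = ∑ x ∈ HasAntidiagonal.antidiagonal a, (x.1.degree : ℝ) * W x.1 * F x.2) →
      0 ∉ T →
      (∀ r : J → ℝ, (∀ j, 0 ≤ r j) → (∀ j, r j ≤ Real.exp (cr * ((sc j : ℝ) * Real.log 2))) →
        ∀ a : J →₀ ℕ, |F a| * mo r a
          ≤ Real.exp (C1 + ∑ j, Real.exp (g * ((sc j : ℝ) * Real.log 2)) * r j ^ 2)) →
      (∀ r : J → ℝ, (∀ j, 0 ≤ r j) → ∑ m ∈ T, |W m| * mo r m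
          ≤ ∑ j, Real.exp (g * ((sc j : ℝ) * Real.log 2)) * (r j + r j ^ 2)) →
      (∀ m : J →₀ ℕ, m ≠ 0 → m ∉ T → m.degree ≤ b0 →
        |W m| ≤ Real.exp (K * m.degree * Real.log (lf (fun j => (sc j : ℝ) * Real.log 2) m)
          - c * lf (fun j => (sc j : ℝ) * Real.log 2) m)) →
      1 / 2 * Real.exp (-∑ m ∈ T, |W m|) ≤ ∑ a ∈ S, F a := by
  have hl2 : 0 < Real.log 2 := Real.log_pos (by norm_num)
  set e := c / (4 * (K + 1)) with he
  have he0 : 0 < e := by positivity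
  have hKe : K * e ≤ c / 4 := by
    rw [he]
    rw [mul_div_assoc', div_le_div_iff₀ (by positivity) (by norm_num)]
    nlinarith
  set ph := cr / (cr + K + 1) with hphd
  have hph0 : 0 < ph := by positivity
  have hph1 : ph ≤ 1 := by rw [hphd, div_le_one (by positivity)]; linarith
  have hph : ph * K ≤ (1 - ph) * cr := by
    have h1 : ph * (cr + K + 1) = cr := by rw [hphd]; field_simp
    nlinarith
  set g0 := ph * c / 4 with hg0
  have hg0p : 0 < g0 := by positivity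
  obtain ⟨l1', h1'⟩ := geom_small.{u} (d := e / 4) (e := e / 4) (by positivity) (by positivity)
  obtain ⟨l2', h2'⟩ := geom_small.{u} (d := c / 4) (e := 1 / 4) (by positivity) (by norm_num)
  obtain ⟨l3', h3'⟩ := geom_small.{u} (d := g0) (e := Real.exp (-C1) / 32 / Real.exp 4)
    hg0p (by positivity)
  obtain ⟨l4', h4'⟩ := log_small (d := e / 2) (by positivity)
  refine ⟨g0, hg0p, max (max l1' l2') (max l3' l4'), ?_⟩
  intro J _ _ sc l1 b0 g F W S T hinj hsc0 hsc1 hg hgg hb0 hF0 hFS hFn hE hT0 hF1 hT hD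
  set ell : J → ℝ := fun j => (sc j : ℝ) * Real.log 2 with hell
  have hm1 : ∀ j, l1' ≤ sc j := fun j => (le_trans (by simp) (hsc0 j))
  have hm2 : ∀ j, l2' ≤ sc j := fun j => (le_trans (by simp) (hsc0 j))
  have hm3 : ∀ j, l3' ≤ sc j := fun j => (le_trans (by simp) (hsc0 j))
  have hm4 : ∀ j, l4' ≤ sc j := fun j => (le_trans (by simp) (hsc0 j))
  have hell2 : ∀ j, 2 ≤ ell j := fun j => (h4' (sc j) (hm4 j)).1
  have hell1 : ∀ j, 1 ≤ ell j := fun j => by linarith [hell2 j]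
  have hlog : ∀ j, Real.log (ell j) ≤ e / 2 * ell j := fun j => (h4' (sc j) (hm4 j)).2
  have hsum1 : ∑ j, Real.exp (-(e / 4 * ell j)) ≤ e / 4 := h1' l1' le_rfl sc hinj hm1
  have hsum2 : ∑ j, Real.exp (-(c / 4 * ell j)) ≤ 1 / 4 := h2' l2' le_rfl sc hinj hm2
  have hsum3 : ∑ j, Real.exp (-(g0 * ell j)) ≤ Real.exp (-C1) / 32 / Real.exp 4 :=
    h3' l3' le_rfl sc hinj hm3
  refine interp F W S T b0 ell (fun j => Real.exp (g * ell j)) C1 K (c - K * e) (c / 2) cr ph
    hF0 hFS hFn hE hT0 hF1 hT ?_ ?_ hC1 hcr0 hcr hK hph0.le hph1 hph ?_ ?_ ?_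
  · intro m hm hmT hmb
    exact gibbs_bound hK hell1 hlog hsum1 hm (hD m hm hmT hmb)
  · intro j
    exact Real.one_le_exp (mul_nonneg hg (by linarith [hell1 j]))
  · refine le_trans (Finset.sum_le_sum fun j _ => Real.exp_le_exp.mpr ?_) hsum2
    have := hell1 j
    nlinarith
  · have h5 : ∀ j, Real.exp (Real.log (Real.exp (g * ell j)) + 4 - ph * (c / 2) * ell j)
        ≤ Real.exp 4 * Real.exp (-(g0 * ell j)) := by
      intro j
      rw [← Real.exp_add, Real.log_exp]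
      refine Real.exp_le_exp.mpr ?_
      have := hell1 j
      have h6 : ph * (c / 2) = 2 * g0 := by rw [hg0]; ring
      rw [h6]
      nlinarith
    refine (Finset.sum_le_sum fun j _ => h5 j).trans ?_
    rw [← Finset.mul_sum]
    calc Real.exp 4 * ∑ j, Real.exp (-(g0 * ell j))
        ≤ Real.exp 4 * (Real.exp (-C1) / 32 / Real.exp 4) :=
          mul_le_mul_of_nonneg_left hsum3 (Real.exp_pos _).le
      _ = Real.exp (-C1) / 32 := by field_simp
  · have hcard : (Fintype.card J : ℝ) ≤ (l1 : ℝ) + 1 := by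
      have : Fintype.card J ≤ l1 + 1 := by
        have h7 := Finset.card_le_card_of_injOn (s := Finset.univ) (t := Finset.range (l1 + 1)) sc
          (fun j _ => by
            rw [Finset.mem_coe, Finset.mem_range]
            have := hsc1 j
            omega) (fun i _ j _ h => hinj h)
        rwa [Finset.card_range, Finset.card_univ] at h7
      exact_mod_cast this
    have h8 : ∀ j, Real.exp ((Real.log (Real.exp (g * ell j)) + 6) / cr)
        ≤ Real.exp ((g * ((l1 : ℝ) * Real.log 2) + 6) / cr) := by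
      intro j
      rw [Real.log_exp]
      refine Real.exp_le_exp.mpr (div_le_div_of_nonneg_right ?_ hcr0.le)
      have h9 : (sc j : ℝ) ≤ l1 := by exact_mod_cast hsc1 j
      have h10 : ell j ≤ (l1 : ℝ) * Real.log 2 := mul_le_mul_of_nonneg_right h9 hl2.le
      nlinarith
    have h11 : ∑ j, Real.exp ((Real.log (Real.exp (g * ell j)) + 6) / cr)
        ≤ ((l1 : ℝ) + 1) * Real.exp ((g * ((l1 : ℝ) * Real.log 2) + 6) / cr) := by
      refine (Finset.sum_le_card_nsmul _ _ _ fun j _ => h8 j).trans ?_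
      rw [nsmul_eq_mul, Finset.card_univ]
      exact mul_le_mul_of_nonneg_right hcard (Real.exp_pos _).le
    linarith

end Vale.Agent.P042.H384
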