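import Mathlib

/-!
# The exponential of a polynomial, coefficientwise (helper384, step H1.e of `P042`)

`T` is a finite set of nonzero multi-indices, `V` real coefficients,
`Pl T V = ∑_{m∈T} V_m θ^m` and `Ex T V a` is the coefficient of `θ^a` in `exp (Pl T V)`.
-/

set_option linter.unusedSectionVars false

namespace Vale.Agent.P042.H384

open Finset MvPolynomial

variable {J : Type*} [Fintype J] [DecidableEq J]

/-- the monomial `r^a` -/
noncomputable def mo (r : J → ℝ) (a : J →₀ ℕ) : ℝ := ∏ j, r j ^ a j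

lemma mo_nonneg {r : J → ℝ} (hr : ∀ j, 0 ≤ r j) (a : J →₀ ℕ) : 0 ≤ mo r a :=
  Finset.prod_nonneg fun j _ => pow_nonneg (hr j) _

lemma mo_one (a : J →₀ ℕ) : mo (fun _ : J => (1 : ℝ)) a = 1 := by simp [mo]

lemma mo_add (r : J → ℝ) (a b : J →₀ ℕ) : mo r (a + b) = mo r a * mo r b := by
  simp [mo, pow_add, Finset.prod_mul_distrib]

/-- the polynomial `∑_{m∈T} V_m θ^m` -/
noncomputable def Pl (T : Finset (J →₀ ℕ)) (V : (J →₀ ℕ) → ℝ) : MvPolynomial J ℝ :=
  ∑ m ∈ T, monomial m (V m)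

omit [Fintype J] in
lemma coeff_Pl (T : Finset (J →₀ ℕ)) (V : (J →₀ ℕ) → ℝ) (a : J →₀ ℕ) :
    coeff a (Pl T V) = if a ∈ T then V a else 0 := by
  unfold Pl
  rw [coeff_sum]
  simp only [coeff_monomial]
  rw [Finset.sum_ite_eq' T a V]

omit [Fintype J] in
lemma eval_Pl [Fintype J] (T : Finset (J →₀ ℕ)) (V : (J →₀ ℕ) → ℝ) (r : J → ℝ) :
    eval r (Pl T V) = ∑ m ∈ T, V m * mo r m := by
  unfold Pl mo
  rw [map_sum]
  refine Finset.sum_congr rfl fun m _ => ?_
  rw [eval_monomial, Finsupp.prod_fintype]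
  intro i; simp

/-- coefficients of the exponential -/
noncomputable def Ex (T : Finset (J →₀ ℕ)) (V : (J →₀ ℕ) → ℝ) (a : J →₀ ℕ) : ℝ :=
  ∑ k ∈ range (a.degree + 1), coeff a (Pl T V ^ k) / (k.factorial : ℝ)

omit [Fintype J] [DecidableEq J] in
lemma degree_snd_lt {a : J →₀ ℕ} {x : (J →₀ ℕ) × (J →₀ ℕ)} (hx : x.1 + x.2 = a)
    (h1 : x.1 ≠ 0) : x.2.degree < a.degree := by
  have h : x.1.degree ≠ 0 := by
    rw [Ne, Finsupp.degree_eq_zero_iff]; exact h1
  have h2 : a.degree = x.1.degree + x.2.degree := by rw [← hx, map_add]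
  omega

/-- no monomial of `P^k` has degree below `k` -/
lemma coeff_pow_eq_zero {T : Finset (J →₀ ℕ)} (hT : 0 ∉ T) (V : (J →₀ ℕ) → ℝ) :
    ∀ (k : ℕ) (a : J →₀ ℕ), a.degree < k → coeff a (Pl T V ^ k) = 0 := by
  intro k
  induction k with
  | zero => intro a h; exact absurd h (Nat.not_lt_zero _)
  | succ k ih =>
    intro a h
    rw [pow_succ', coeff_mul]
    refine Finset.sum_eq_zero fun x hx => ?_
    rw [HasAntidiagonal.mem_antidiagonal] at hx
    by_cases h1 : x.1 = 0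
    · rw [coeff_Pl, h1, if_neg hT, zero_mul]
    · have := degree_snd_lt hx h1
      rw [ih x.2 (by omega), mul_zero]

omit [Fintype J] in
/-- Leibniz rule for the Euler derivation, in coefficients -/
lemma leib {p q p' q' : MvPolynomial J ℝ}
    (hp : ∀ a : J →₀ ℕ, (a.degree : ℝ) * coeff a p = coeff a p')
    (hq : ∀ a : J →₀ ℕ, (a.degree : ℝ) * coeff a q = coeff a q') (a : J →₀ ℕ) :
    (a.degree : ℝ) * coeff a (p * q) = coeff a (p' * q + p * q') := by
  rw [coeff_add, coeff_mul, coeff_mul, coeff_mul, Finset.mul_sum, ← Finset.sum_add_distrib]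
  refine Finset.sum_congr rfl fun x hx => ?_
  rw [HasAntidiagonal.mem_antidiagonal] at hx
  rw [← hp, ← hq, ← hx, map_add]
  push_cast
  ring

lemma euler_pow (T : Finset (J →₀ ℕ)) (V : (J →₀ ℕ) → ℝ) :
    ∀ (k : ℕ) (a : J →₀ ℕ), (a.degree : ℝ) * coeff a (Pl T V ^ (k + 1))
      = ((k : ℝ) + 1) * coeff a (Pl T (fun m => (m.degree : ℝ) * V m) * Pl T V ^ k) := by
  set Q := Pl T (fun m => (m.degree : ℝ) * V m) with hQ
  have hP : ∀ a : J →₀ ℕ, (a.degree : ℝ) * coeff a (Pl T V) = coeff a Q := by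
    intro a
    rw [hQ, coeff_Pl, coeff_Pl]
    split_ifs <;> simp
  intro k
  induction k with
  | zero => intro a; rw [zero_add, pow_one, pow_zero, mul_one, hP]; simp
  | succ k ih =>
    intro a
    have hk : ∀ b : J →₀ ℕ, (b.degree : ℝ) * coeff b (Pl T V ^ (k + 1))
        = coeff b (C ((k : ℝ) + 1) * (Q * Pl T V ^ k)) := by
      intro b; rw [ih b, coeff_C_mul]
    rw [pow_succ (Pl T V) (k + 1), leib hk hP a, coeff_add]
    have e1 : C ((k : ℝ) + 1) * (Q * Pl T V ^ k) * Pl T V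
        = C ((k : ℝ) + 1) * (Q * Pl T V ^ (k + 1)) := by ring
    have e2 : Pl T V ^ (k + 1) * Q = Q * Pl T V ^ (k + 1) := by ring
    rw [e1, e2, coeff_C_mul]
    push_cast
    ring

lemma Ex_zero {T : Finset (J →₀ ℕ)} (V : (J →₀ ℕ) → ℝ) : Ex T V 0 = 1 := by
  simp [Ex]

lemma Ex_eq_sum {T : Finset (J →₀ ℕ)} (hT : 0 ∉ T) (V : (J →₀ ℕ) → ℝ) (a : J →₀ ℕ) (N : ℕ)
    (hN : a.degree < N) :
    Ex T V a = ∑ k ∈ range N, coeff a (Pl T V ^ k) / (k.factorial : ℝ) := by
  unfold Ex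
  refine Finset.sum_subset (Finset.range_mono (by omega)) fun k _ hk => ?_
  rw [coeff_pow_eq_zero hT V k a (by simpa using hk), zero_div]

/-- Euler identity for the exponential -/
lemma euler_Ex {T : Finset (J →₀ ℕ)} (hT : 0 ∉ T) (V : (J →₀ ℕ) → ℝ) (a : J →₀ ℕ) :
    (a.degree : ℝ) * Ex T V a
      = ∑ x ∈ antidiagonal a, (if x.1 ∈ T then (x.1.degree : ℝ) * V x.1 else 0) * Ex T V x.2 := by
  unfold Ex
  rw [Finset.sum_range_succ', mul_add, Finset.mul_sum]
  have h0 : (a.degree : ℝ) * (coeff a (Pl T V ^ 0) / ((0 : ℕ).factorial : ℝ)) = 0 := by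
    rw [pow_zero, coeff_one]
    by_cases h : 0 = a
    · rw [← h]; simp
    · rw [if_neg h]; simp
  rw [h0, add_zero]
  have h1 : ∀ k ∈ range a.degree,
      (a.degree : ℝ) * (coeff a (Pl T V ^ (k + 1)) / ((k + 1).factorial : ℝ))
        = ∑ x ∈ antidiagonal a, (if x.1 ∈ T then (x.1.degree : ℝ) * V x.1 else 0) *
          (coeff x.2 (Pl T V ^ k) / (k.factorial : ℝ)) := by
    intro k _
    rw [← mul_div_assoc, euler_pow, coeff_mul, Nat.factorial_succ]
    push_cast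
    rw [mul_div_mul_left _ _ (by positivity : ((k : ℝ) + 1) ≠ 0), Finset.sum_div]
    refine Finset.sum_congr rfl fun x _ => ?_
    rw [coeff_Pl, mul_div_assoc]
  rw [Finset.sum_congr rfl h1, Finset.sum_comm]
  refine Finset.sum_congr rfl fun x hx => ?_
  rw [HasAntidiagonal.mem_antidiagonal] at hx
  rw [← Finset.mul_sum]
  by_cases hx1 : x.1 ∈ T
  · rw [if_pos hx1]
    congr 1
    have hne : x.1 ≠ 0 := fun h => hT (h ▸ hx1)
    have hlt := degree_snd_lt hx hne
    exact (Ex_eq_sum hT V x.2 _ hlt).symm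
  · rw [if_neg hx1, zero_mul, zero_mul]

/-- domination of the powers -/
lemma abs_coeff_pow_le (T : Finset (J →₀ ℕ)) (V : (J →₀ ℕ) → ℝ) :
    ∀ (k : ℕ) (a : J →₀ ℕ),
      |coeff a (Pl T V ^ k)| ≤ coeff a (Pl T (fun m => |V m|) ^ k) := by
  intro k
  induction k with
  | zero =>
    intro a; rw [pow_zero, pow_zero, coeff_one]; split_ifs <;> simp
  | succ k ih =>
    intro a
    rw [pow_succ', pow_succ', coeff_mul, coeff_mul]
    refine (Finset.abs_sum_le_sum_abs _ _).trans (Finset.sum_le_sum fun x _ => ?_)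
    rw [abs_mul]
    refine mul_le_mul ?_ (ih x.2) (abs_nonneg _) ?_
    · rw [coeff_Pl, coeff_Pl]; split_ifs <;> simp
    · rw [coeff_Pl]; split_ifs <;> simp

lemma coeff_abs_nonneg (T : Finset (J →₀ ℕ)) (V : (J →₀ ℕ) → ℝ) (k : ℕ) (a : J →₀ ℕ) :
    0 ≤ coeff a (Pl T (fun m => |V m|) ^ k) :=
  (abs_nonneg _).trans (abs_coeff_pow_le T V k a)

/-- a polynomial with nonnegative coefficients dominates each of its partial sums -/
lemma sum_coeff_mo_le {p : MvPolynomial J ℝ} (hp : ∀ a, 0 ≤ coeff a p) {r : J → ℝ}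
    (hr : ∀ j, 0 ≤ r j) (A : Finset (J →₀ ℕ)) :
    ∑ a ∈ A, coeff a p * mo r a ≤ eval r p := by
  rw [eval_eq']
  have h1 : ∑ a ∈ A, coeff a p * mo r a ≤ ∑ a ∈ A ∪ p.support, coeff a p * mo r a :=
    Finset.sum_le_sum_of_subset_of_nonneg Finset.subset_union_left
      fun a _ _ => mul_nonneg (hp a) (mo_nonneg hr a)
  refine h1.trans (le_of_eq ?_)
  symm
  refine Finset.sum_subset Finset.subset_union_right fun a _ ha => ?_
  rw [notMem_support_iff.mp ha, zero_mul]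

/-- `∑ |E_a| r^a ≤ exp (∑ |V_m| r^m)` -/
lemma sum_abs_Ex_le {T : Finset (J →₀ ℕ)} (hT : 0 ∉ T) (V : (J →₀ ℕ) → ℝ) {r : J → ℝ}
    (hr : ∀ j, 0 ≤ r j) (A : Finset (J →₀ ℕ)) :
    ∑ a ∈ A, |Ex T V a| * mo r a ≤ Real.exp (∑ m ∈ T, |V m| * mo r m) := by
  classical
  set N := A.sup (fun a => a.degree) + 1 with hN
  have hlt : ∀ a ∈ A, a.degree < N := by
    intro a ha
    have := Finset.le_sup (f := fun a : J →₀ ℕ => a.degree) ha
    omega
  have h1 : ∀ a ∈ A, |Ex T V a| * mo r a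
      ≤ ∑ k ∈ range N, coeff a (Pl T (fun m => |V m|) ^ k) * mo r a / (k.factorial : ℝ) := by
    intro a ha
    rw [Ex_eq_sum hT V a N (hlt a ha)]
    refine (mul_le_mul_of_nonneg_right (Finset.abs_sum_le_sum_abs _ _) (mo_nonneg hr a)).trans ?_
    rw [Finset.sum_mul]
    refine Finset.sum_le_sum fun k _ => ?_
    rw [abs_div, div_mul_eq_mul_div, abs_of_nonneg (by positivity : (0:ℝ) ≤ (k.factorial : ℝ))]
    refine div_le_div_of_nonneg_right ?_ (by positivity)
    exact mul_le_mul_of_nonneg_right (abs_coeff_pow_le T V k a) (mo_nonneg hr a)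
  refine (Finset.sum_le_sum h1).trans ?_
  rw [Finset.sum_comm]
  have h2 : ∀ k ∈ range N,
      ∑ a ∈ A, coeff a (Pl T (fun m => |V m|) ^ k) * mo r a / (k.factorial : ℝ)
        ≤ (∑ m ∈ T, |V m| * mo r m) ^ k / (k.factorial : ℝ) := by
    intro k _
    rw [← Finset.sum_div]
    refine div_le_div_of_nonneg_right ?_ (by positivity)
    refine (sum_coeff_mo_le (coeff_abs_nonneg T V k) hr A).trans (le_of_eq ?_)
    rw [map_pow, eval_Pl]
  refine (Finset.sum_le_sum h2).trans ?_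
  refine Real.sum_le_exp_of_nonneg ?_ N
  exact Finset.sum_nonneg fun m _ => mul_nonneg (abs_nonneg _) (mo_nonneg hr m)

lemma summable_abs_Ex {T : Finset (J →₀ ℕ)} (hT : 0 ∉ T) (V : (J →₀ ℕ) → ℝ) :
    Summable fun a : J →₀ ℕ => |Ex T V a| := by
  refine summable_of_sum_le (c := Real.exp (∑ m ∈ T, |V m|)) (fun a => abs_nonneg _) fun A => ?_
  have := sum_abs_Ex_le hT V (r := fun _ => 1) (fun _ => zero_le_one) A
  simpa [mo_one] using this

/-- `∑ E_a = exp (∑ V_m)` -/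
lemma tsum_Ex {T : Finset (J →₀ ℕ)} (hT : 0 ∉ T) (V : (J →₀ ℕ) → ℝ) :
    ∑' a : J →₀ ℕ, Ex T V a = Real.exp (∑ m ∈ T, V m) := by
  classical
  have hEx : ∀ (U : (J →₀ ℕ) → ℝ) (a : J →₀ ℕ),
      HasSum (fun k : ℕ => coeff a (Pl T U ^ k) / (k.factorial : ℝ)) (Ex T U a) := by
    intro U a
    unfold Ex
    refine hasSum_sum_of_ne_finset_zero fun k hk => ?_
    rw [coeff_pow_eq_zero hT U k a (by simpa using hk), zero_div]
  have hpoly : ∀ (k : ℕ),
      HasSum (fun a : J →₀ ℕ => coeff a (Pl T V ^ k) / (k.factorial : ℝ))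
        ((∑ m ∈ T, V m) ^ k / (k.factorial : ℝ)) := by
    intro k
    refine HasSum.div_const ?_ _
    have h1 : (∑ m ∈ T, V m) ^ k = ∑ a ∈ (Pl T V ^ k).support, coeff a (Pl T V ^ k) := by
      have e1 : eval (fun _ : J => (1 : ℝ)) (Pl T V ^ k) = (∑ m ∈ T, V m) ^ k := by
        rw [map_pow, eval_Pl]; simp [mo_one]
      rw [← e1, eval_eq']
      simp
    rw [h1]
    refine hasSum_sum_of_ne_finset_zero fun a ha => ?_
    exact notMem_support_iff.mp ha
  have hsum : Summable (Function.uncurry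
      fun (a : J →₀ ℕ) (k : ℕ) => coeff a (Pl T V ^ k) / (k.factorial : ℝ)) := by
    refine Summable.of_norm_bounded (g := fun x : (J →₀ ℕ) × ℕ =>
      coeff x.1 (Pl T (fun m => |V m|) ^ x.2) / (x.2.factorial : ℝ)) ?_ ?_
    · rw [summable_prod_of_nonneg]
      · refine ⟨fun a => (hEx _ a).summable, ?_⟩
        have : (fun a : J →₀ ℕ => ∑' k : ℕ,
            coeff a (Pl T (fun m => |V m|) ^ k) / (k.factorial : ℝ))
            = fun a => Ex T (fun m => |V m|) a := by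
          funext a; exact (hEx _ a).tsum_eq
        rw [this]
        refine (summable_abs_Ex hT (fun m => |V m|)).of_norm_bounded fun a => ?_
        rw [Real.norm_eq_abs]
      · intro x
        exact div_nonneg (coeff_abs_nonneg T V _ _) (by positivity)
    · rintro ⟨a, k⟩
      simp only [Function.uncurry]
      rw [Real.norm_eq_abs, abs_div, abs_of_nonneg (by positivity : (0:ℝ) ≤ (k.factorial : ℝ))]
      exact div_le_div_of_nonneg_right (abs_coeff_pow_le T V k a) (by positivity)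
  have hswap := hsum.tsum_comm
  have e1 : ∑' a : J →₀ ℕ, Ex T V a
      = ∑' (a : J →₀ ℕ) (k : ℕ), coeff a (Pl T V ^ k) / (k.factorial : ℝ) :=
    tsum_congr fun a => ((hEx V a).tsum_eq).symm
  rw [e1, ← hswap]
  have e2 : ∑' (k : ℕ) (a : J →₀ ℕ), coeff a (Pl T V ^ k) / (k.factorial : ℝ)
      = ∑' k : ℕ, (∑ m ∈ T, V m) ^ k / (k.factorial : ℝ) :=
    tsum_congr fun k => (hpoly k).tsum_eq
  rw [e2, Real.exp_eq_exp_ℝ, NormedSpace.exp_eq_tsum_div]

end Vale.Agent.P042.H384
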