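import Vale.Agent.P042.H384.Interp

/-!
# Gibbs' inequality for multi-indices (helper384, step H1.e of `P042`)

`|a| log (∑ a_j ℓ_j) ≤ ∑ a_j log a_j + ε ∑ a_j ℓ_j` as soon as the `ℓ_j` are large and
`∑ exp (-ε ℓ_j / 4)` is small.
-/

set_option linter.unusedSectionVars false

namespace Vale.Agent.P042.H384

open Finset

variable {J : Type*} [Fintype J] [DecidableEq J]

lemma degree_eq_sum_real (a : J →₀ ℕ) : (a.degree : ℝ) = ∑ j, (a j : ℝ) := by
  rw [Finsupp.degree_eq_sum]; push_cast; rfl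

lemma degree_le_lf {ell : J → ℝ} (hell : ∀ j, 1 ≤ ell j) (a : J →₀ ℕ) :
    (a.degree : ℝ) ≤ lf ell a := by
  rw [degree_eq_sum_real]
  unfold lf
  refine Finset.sum_le_sum fun j _ => ?_
  have : (0 : ℝ) ≤ a j := Nat.cast_nonneg _
  nlinarith [hell j]

lemma ell_le_lf {ell : J → ℝ} (hell : ∀ j, 0 ≤ ell j) (a : J →₀ ℕ) {j : J} (hj : a j ≠ 0) :
    ell j ≤ lf ell a := by
  have h1 : (a j : ℝ) * ell j ≤ lf ell a :=
    Finset.single_le_sum (f := fun i => (a i : ℝ) * ell i)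
      (fun i _ => mul_nonneg (Nat.cast_nonneg _) (hell i)) (Finset.mem_univ j)
  have h2 : (1 : ℝ) ≤ a j := by exact_mod_cast Nat.pos_of_ne_zero hj
  nlinarith [hell j]

lemma lf_nonneg {ell : J → ℝ} (hell : ∀ j, 0 ≤ ell j) (a : J →₀ ℕ) : 0 ≤ lf ell a :=
  Finset.sum_nonneg fun j _ => mul_nonneg (Nat.cast_nonneg _) (hell j)

lemma lf_pos {ell : J → ℝ} (hell : ∀ j, 1 ≤ ell j) {a : J →₀ ℕ} (ha : a ≠ 0) :
    1 ≤ lf ell a := by
  have h1 : a.degree ≠ 0 := by rw [Ne, Finsupp.degree_eq_zero_iff]; exact ha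
  have h2 : (1 : ℝ) ≤ a.degree := by exact_mod_cast Nat.pos_of_ne_zero h1
  exact h2.trans (degree_le_lf hell a)

/-- **Gibbs' inequality** -/
lemma gibbs {ell : J → ℝ} {e : ℝ} (hell : ∀ j, 1 ≤ ell j)
    (hlog : ∀ j, Real.log (ell j) ≤ e / 2 * ell j)
    (hsum : ∑ j, Real.exp (-(e / 4 * ell j)) ≤ e / 4) {a : J →₀ ℕ} (ha : a ≠ 0) :
    (a.degree : ℝ) * Real.log (lf ell a) ≤ Lf a + e * lf ell a := by
  set La := lf ell a with hLa
  have hLa1 : 1 ≤ La := lf_pos hell ha
  have hLa0 : 0 < La := by linarith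
  have key : ∀ j, (a j : ℝ) * Real.log La ≤
      xl (a j) + (e / 2 * ((a j : ℝ) * ell j)) + (e / 4 * ((a j : ℝ) * ell j))
        + La * Real.exp (-(e / 4 * ell j)) := by
    intro j
    have hpos := Real.exp_pos (-(e / 4 * ell j))
    have hellp : 0 < ell j := by linarith [hell j]
    rcases Nat.eq_zero_or_pos (a j) with h0 | h0
    · rw [h0]
      simp only [Nat.cast_zero, zero_mul, mul_zero, xl]
      positivity
    · have ha0 : (0 : ℝ) < a j := by exact_mod_cast h0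
      -- `log (e^{-δℓ} Λ / (a ℓ)) ≤ e^{-δℓ} Λ / (a ℓ)`
      have hq : 0 < Real.exp (-(e / 4 * ell j)) * La / ((a j : ℝ) * ell j) := by positivity
      have h1 := Real.log_le_sub_one_of_pos hq
      rw [Real.log_div (by positivity) (by positivity), Real.log_mul hpos.ne' hLa0.ne',
        Real.log_exp, Real.log_mul ha0.ne' hellp.ne'] at h1
      have h2 := mul_le_mul_of_nonneg_left h1 ha0.le
      have h3 : (a j : ℝ) * (Real.exp (-(e / 4 * ell j)) * La / ((a j : ℝ) * ell j) - 1)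
          ≤ La * Real.exp (-(e / 4 * ell j)) := by
        have h4 : (a j : ℝ) * (Real.exp (-(e / 4 * ell j)) * La / ((a j : ℝ) * ell j) - 1)
            = La * Real.exp (-(e / 4 * ell j)) / ell j - a j := by field_simp
        rw [h4]
        have h5 : La * Real.exp (-(e / 4 * ell j)) / ell j ≤ La * Real.exp (-(e / 4 * ell j)) :=
          div_le_self (by positivity) (hell j)
        linarith
      have h6 := mul_le_mul_of_nonneg_left (hlog j) ha0.le
      unfold xl
      nlinarith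
  have hs := Finset.sum_le_sum (s := Finset.univ) fun j _ => key j
  rw [← Finset.sum_mul, ← degree_eq_sum_real, Finset.sum_add_distrib, Finset.sum_add_distrib,
    Finset.sum_add_distrib, ← Finset.mul_sum, ← Finset.mul_sum, ← Finset.mul_sum] at hs
  have e1 : ∑ j, (a j : ℝ) * ell j = La := rfl
  have e2 : ∑ j, xl (a j) = Lf a := rfl
  rw [e1, e2] at hs
  have h7 := mul_le_mul_of_nonneg_left hsum hLa0.le
  nlinarith

/-- the bound (D) in the form consumed by `interp` -/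
lemma gibbs_bound {ell : J → ℝ} {e K c x : ℝ} (hK : 0 ≤ K) (hell : ∀ j, 1 ≤ ell j)
    (hlog : ∀ j, Real.log (ell j) ≤ e / 2 * ell j)
    (hsum : ∑ j, Real.exp (-(e / 4 * ell j)) ≤ e / 4) {a : J →₀ ℕ} (ha : a ≠ 0)
    (hx : x ≤ Real.exp (K * a.degree * Real.log (lf ell a) - c * lf ell a)) :
    x ≤ Real.exp (K * Lf a - (c - K * e) * lf ell a) := by
  refine hx.trans (Real.exp_le_exp.mpr ?_)
  have h1 := mul_le_mul_of_nonneg_left (gibbs hell hlog hsum ha) hK
  nlinarith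

/-- `(2|a|)! ≤ exp (4 |a| log Λ(a))` if all `ℓ_j ≥ 2` -/
lemma fact_le_exp {ell : J → ℝ} (hell : ∀ j, 2 ≤ ell j) {a : J →₀ ℕ} (ha : a ≠ 0) :
    (((2 * a.degree).factorial : ℕ) : ℝ) ≤ Real.exp (4 * a.degree * Real.log (lf ell a)) := by
  have hell1 : ∀ j, 1 ≤ ell j := fun j => by linarith [hell j]
  have hd : a.degree ≠ 0 := by rw [Ne, Finsupp.degree_eq_zero_iff]; exact ha
  have hd1 : (1 : ℝ) ≤ a.degree := by exact_mod_cast Nat.pos_of_ne_zero hd
  have h2d : 2 * (a.degree : ℝ) ≤ lf ell a := by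
    rw [degree_eq_sum_real]
    unfold lf
    rw [Finset.mul_sum]
    refine Finset.sum_le_sum fun j _ => ?_
    have : (0 : ℝ) ≤ a j := Nat.cast_nonneg _
    nlinarith [hell j]
  have h1 : (((2 * a.degree).factorial : ℕ) : ℝ) ≤ (2 * (a.degree : ℝ)) ^ (2 * a.degree) := by
    have := Nat.factorial_le_pow (2 * a.degree)
    calc (((2 * a.degree).factorial : ℕ) : ℝ) ≤ (((2 * a.degree) ^ (2 * a.degree) : ℕ) : ℝ) := by
          exact_mod_cast this
      _ = _ := by push_cast; rfl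
  refine h1.trans ?_
  have h2 : (2 * (a.degree : ℝ)) ^ (2 * a.degree) ≤ lf ell a ^ (2 * a.degree) :=
    pow_le_pow_left₀ (by positivity) h2d _
  refine h2.trans ?_
  have hlf : 1 ≤ lf ell a := lf_pos hell1 ha
  have h3 : lf ell a ^ (2 * a.degree)
      = Real.exp (((2 * a.degree : ℕ) : ℝ) * Real.log (lf ell a)) := by
    rw [Real.exp_nat_mul, Real.exp_log (by linarith)]
  rw [h3]
  refine Real.exp_le_exp.mpr ?_
  push_cast
  have := Real.log_nonneg hlf
  nlinarith [mul_nonneg (Nat.cast_nonneg a.degree : (0:ℝ) ≤ a.degree) this]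

/-- `(|a| ℓ_i)^{C |a|} ≤ exp (2 C |a| log Λ(a))` for `i` in the support of `a` -/
lemma mul_pow_le_exp {ell : J → ℝ} (hell : ∀ j, 1 ≤ ell j) {a : J →₀ ℕ} (ha : a ≠ 0) {i : J}
    (hi : a i ≠ 0) {C : ℝ} (hC : 0 ≤ C) :
    ((a.degree : ℝ) * ell i) ^ (C * a.degree)
      ≤ Real.exp (2 * C * a.degree * Real.log (lf ell a)) := by
  have hd : a.degree ≠ 0 := by rw [Ne, Finsupp.degree_eq_zero_iff]; exact ha
  have hd1 : (1 : ℝ) ≤ a.degree := by exact_mod_cast Nat.pos_of_ne_zero hd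
  have hpos : 0 < (a.degree : ℝ) * ell i := by nlinarith [hell i]
  have h1 : Real.log ((a.degree : ℝ) * ell i) ≤ 2 * Real.log (lf ell a) := by
    rw [Real.log_mul (by linarith) (by linarith [hell i])]
    have h2 := Real.log_le_log (by linarith) (degree_le_lf hell a)
    have h3 := Real.log_le_log (by linarith [hell i])
      (ell_le_lf (fun j => by linarith [hell j]) a hi)
    linarith
  rw [Real.rpow_def_of_pos hpos]
  refine Real.exp_le_exp.mpr ?_
  have h4 : 0 ≤ C * (a.degree : ℝ) := by positivity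
  nlinarith

end Vale.Agent.P042.H384
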