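import Vale.Agent.P042.H384.Bd

/-!
# The interpolation step (helper384, step H1.e of `P042`)

`F` is a polynomial in one strength per scale, `W` its logarithmic coefficients up to order
`b0`.  One bound (`hF1`) is good for high orders, the other one (`hD`) for low orders; the
quotient `X = F * exp (-W_T)` satisfies both bounds, hence their geometric mean, and the
geometric mean is summable.
-/

set_option linter.unusedSectionVars false

namespace Vale.Agent.P042.H384

open Finset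

variable {J : Type*} [Fintype J] [DecidableEq J]

/-- the quotient `F * exp (-W_T)` -/
noncomputable def Xq (T : Finset (J →₀ ℕ)) (F W : (J →₀ ℕ) → ℝ) (a : J →₀ ℕ) : ℝ :=
  ∑ x ∈ HasAntidiagonal.antidiagonal a, F x.1 * Ex T (fun m => -W m) x.2

lemma Xq_zero {T : Finset (J →₀ ℕ)} {F W : (J →₀ ℕ) → ℝ} (hF0 : F 0 = 1) :
    Xq T F W 0 = 1 := by
  unfold Xq
  rw [HasAntidiagonal.antidiagonal_zero]
  simp [hF0, Ex_zero]

/-- Euler identity for the quotient -/
lemma euler_Xq {T : Finset (J →₀ ℕ)} {F W : (J →₀ ℕ) → ℝ} {b0 : ℕ} (hT0 : 0 ∉ T)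
    (hE : ∀ a : J →₀ ℕ, a.degree ≤ b0 → (a.degree : ℝ) * F a
      = ∑ x ∈ HasAntidiagonal.antidiagonal a, (x.1.degree : ℝ) * W x.1 * F x.2)
    (a : J →₀ ℕ) (ha : a.degree ≤ b0) :
    (a.degree : ℝ) * Xq T F W a
      = ∑ x ∈ HasAntidiagonal.antidiagonal a,
        (if x.1 ∈ T then 0 else (x.1.degree : ℝ) * W x.1) * Xq T F W x.2 := by
  set E := Ex T (fun m => -W m) with hEdef
  -- as power series
  let f : MvPowerSeries J ℝ := fun m => F m
  let e : MvPowerSeries J ℝ := fun m => E m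
  let w : MvPowerSeries J ℝ := fun m => (m.degree : ℝ) * W m
  let q : MvPowerSeries J ℝ := fun m => if m ∈ T then (m.degree : ℝ) * (-W m) else 0
  have hmul : ∀ (u v : MvPowerSeries J ℝ) (b : J →₀ ℕ),
      MvPowerSeries.coeff b (u * v)
        = ∑ x ∈ HasAntidiagonal.antidiagonal b, u x.1 * v x.2 := by
    intro u v b
    rw [MvPowerSeries.coeff_mul]
    rfl
  have hX : ∀ b : J →₀ ℕ, Xq T F W b = MvPowerSeries.coeff b (f * e) := by
    intro b; rw [hmul]; rfl
  have hXf : ∀ b : J →₀ ℕ, Xq T F W b = (f * e) b := hX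
  have h1 : (a.degree : ℝ) * Xq T F W a
      = (∑ x ∈ HasAntidiagonal.antidiagonal a, (w * f) x.1 * e x.2)
        + ∑ x ∈ HasAntidiagonal.antidiagonal a, f x.1 * (q * e) x.2 := by
    unfold Xq
    rw [Finset.mul_sum, ← Finset.sum_add_distrib]
    refine Finset.sum_congr rfl fun x hx => ?_
    rw [HasAntidiagonal.mem_antidiagonal] at hx
    have hd : a.degree = x.1.degree + x.2.degree := by rw [← hx, map_add]
    have h2 : (w * f) x.1 = (x.1.degree : ℝ) * F x.1 := by
      rw [hE x.1 (by omega)]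
      exact hmul w f x.1
    have h3 : (q * e) x.2 = (x.2.degree : ℝ) * E x.2 := by
      rw [hEdef, euler_Ex hT0]
      exact hmul q e x.2
    rw [h2, h3, hd]
    push_cast
    show ((x.1.degree : ℝ) + x.2.degree) * (F x.1 * E x.2)
      = (x.1.degree : ℝ) * F x.1 * E x.2 + F x.1 * ((x.2.degree : ℝ) * E x.2)
    ring
  rw [h1, ← hmul (w * f) e a, ← hmul f (q * e) a, ← map_add]
  have h4 : w * f * e + f * (q * e) = (w + q) * (f * e) := by ring
  rw [h4, hmul]
  refine Finset.sum_congr rfl fun x _ => ?_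
  rw [hXf x.2]
  congr 1
  show (x.1.degree : ℝ) * W x.1 + (if x.1 ∈ T then (x.1.degree : ℝ) * (-W x.1) else 0) = _
  split_ifs <;> ring

/-- low orders -/
lemma bound_low {X V : (J →₀ ℕ) → ℝ} {b0 : ℕ} {ell : J → ℝ} {k1 c2 c3 : ℝ}
    (hX0 : X 0 = 1)
    (hX : ∀ a : J →₀ ℕ, a.degree ≤ b0 → (a.degree : ℝ) * X a
      = ∑ x ∈ HasAntidiagonal.antidiagonal a, (x.1.degree : ℝ) * V x.1 * X x.2)
    (hk1 : 0 ≤ k1) (hV : ∀ m : J →₀ ℕ, m ≠ 0 → m.degree ≤ b0 →
      |V m| ≤ Real.exp (k1 * Lf m - c2 * lf ell m))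
    (hs : ∑ j, Real.exp (-((c2 - c3) * ell j)) ≤ 1 / 4) :
    ∀ (n : ℕ) (a : J →₀ ℕ), a.degree = n → n ≤ b0 →
      |X a| ≤ Real.exp (k1 * Lf a - c3 * lf ell a) := by
  classical
  intro n
  induction n using Nat.strong_induction_on with
  | _ n ih =>
  intro a han hn
  rcases Nat.eq_zero_or_pos n with h0 | hpos
  · have ha : a = 0 := by
      rw [← Finsupp.degree_eq_zero_iff]; omega
    rw [ha, hX0]
    simp [Lf, lf, xl]
  have hdpos : (0 : ℝ) < (a.degree : ℝ) := by rw [han]; exact_mod_cast hpos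
  set y : J → ℝ := fun j => Real.exp (-((c2 - c3) * ell j)) with hy
  set R := Real.exp (k1 * Lf a - c3 * lf ell a) with hR
  have hRpos : 0 < R := Real.exp_pos _
  have key : ∀ x ∈ HasAntidiagonal.antidiagonal a,
      |(x.1.degree : ℝ) * V x.1 * X x.2|
        ≤ (a.degree : ℝ) * (R * (if x.1 = 0 then 0 else mo y x.1)) := by
    intro x hx
    rw [HasAntidiagonal.mem_antidiagonal] at hx
    by_cases h1 : x.1 = 0
    · rw [if_pos h1, h1]; simp
    rw [if_neg h1]
    have hlt := degree_snd_lt hx h1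
    have hd : a.degree = x.1.degree + x.2.degree := by rw [← hx, map_add]
    have hV1 := hV x.1 h1 (by omega)
    have hX1 := ih x.2.degree (by omega) x.2 rfl (by omega)
    rw [abs_mul, abs_mul, mul_assoc, abs_of_nonneg (Nat.cast_nonneg _ : (0:ℝ) ≤ (x.1.degree : ℝ))]
    refine mul_le_mul (by exact_mod_cast (by omega : x.1.degree ≤ a.degree)) ?_
      (mul_nonneg (abs_nonneg _) (abs_nonneg _)) hdpos.le
    have h2 : |V x.1| * |X x.2| ≤ Real.exp (k1 * Lf x.1 - c2 * lf ell x.1)
        * Real.exp (k1 * Lf x.2 - c3 * lf ell x.2) :=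
      mul_le_mul hV1 hX1 (abs_nonneg _) (Real.exp_pos _).le
    refine h2.trans ?_
    have h3 : mo y x.1 = Real.exp (-((c2 - c3) * lf ell x.1)) := by
      rw [hy, exp_neg_lf]
    rw [h3, hR, ← Real.exp_add, ← Real.exp_add]
    refine Real.exp_le_exp.mpr ?_
    have h4 : lf ell a = lf ell x.1 + lf ell x.2 := by rw [← hx, lf_add]
    have h5 : Lf x.1 + Lf x.2 ≤ Lf a := by rw [← hx]; exact Lf_add_le _ _
    have h6 := mul_le_mul_of_nonneg_left h5 hk1
    rw [h4]
    nlinarith
  have h1 : (a.degree : ℝ) * |X a| ≤ (a.degree : ℝ) * (R * 1) := by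
    have e1 : (a.degree : ℝ) * |X a| = |(a.degree : ℝ) * X a| := by
      rw [abs_mul, abs_of_nonneg hdpos.le]
    rw [e1, hX a (by omega)]
    refine (Finset.abs_sum_le_sum_abs _ _).trans ((Finset.sum_le_sum key).trans ?_)
    rw [← Finset.mul_sum, ← Finset.mul_sum]
    refine mul_le_mul_of_nonneg_left (mul_le_mul_of_nonneg_left ?_ hRpos.le) hdpos.le
    have h2 : ∑ x ∈ HasAntidiagonal.antidiagonal a, (if x.1 = 0 then 0 else mo y x.1)
        = ∑ m ∈ (HasAntidiagonal.antidiagonal a).image (fun x => x.1),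
          (if m = 0 then 0 else mo y m) := by
      rw [Finset.sum_image]
      intro x hx z hz hxz
      rw [Finset.mem_coe, HasAntidiagonal.mem_antidiagonal] at hx hz
      simp only at hxz
      ext1
      · exact hxz
      · rw [hxz] at hx
        exact add_left_cancel (hx.trans hz.symm)
    rw [h2]
    have h3 : ∑ m ∈ (HasAntidiagonal.antidiagonal a).image (fun x => x.1),
          (if m = 0 then 0 else mo y m)
        = ∑ m ∈ ((HasAntidiagonal.antidiagonal a).image (fun x => x.1)).filter (fun m => ¬ m = 0),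
          mo y m := by
      rw [Finset.sum_filter]
      refine Finset.sum_congr rfl fun m _ => ?_
      by_cases hm : m = 0
      · rw [if_pos hm, if_neg (not_not.mpr hm)]
      · rw [if_neg hm, if_pos hm]
    rw [h3]
    have h4 := sum_mo_le (y := y) (fun j => (Real.exp_pos _).le) hs (by norm_num)
      (((HasAntidiagonal.antidiagonal a).image (fun x => x.1)).filter (fun m => ¬ m = 0))
      (by simp)
    refine h4.trans (by norm_num)
  rw [mul_one] at h1
  exact le_of_mul_le_mul_left h1 hdpos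

/-- all orders -/
lemma bound_high {T : Finset (J →₀ ℕ)} {F W : (J →₀ ℕ) → ℝ} {ell B : J → ℝ} {C1 cr : ℝ}
    (hT0 : 0 ∉ T)
    (hFn : ∀ a : J →₀ ℕ, F a ≠ 0 → ∀ j, (a j : ℝ) ≤ Real.exp (ell j))
    (hF1 : ∀ r : J → ℝ, (∀ j, 0 ≤ r j) → (∀ j, r j ≤ Real.exp (cr * ell j)) →
      ∀ a : J →₀ ℕ, |F a| * mo r a ≤ Real.exp (C1 + ∑ j, B j * r j ^ 2))
    (hT : ∀ r : J → ℝ, (∀ j, 0 ≤ r j) →
      ∑ m ∈ T, |W m| * mo r m ≤ ∑ j, B j * (r j + r j ^ 2))
    (hB : ∀ j, 1 ≤ B j) (hcr0 : 0 < cr) (hcr : cr ≤ 1 / 2) (a : J →₀ ℕ) :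
    |Xq T F W a| ≤ Real.exp (C1 + ∑ j, ((a j : ℝ) * (Real.log (B j) + 4) - cr * xl (a j))) := by
  classical
  have hBpos : ∀ j, 0 < B j := fun j => lt_of_lt_of_le one_pos (hB j)
  have hlB : ∀ j, 0 ≤ Real.log (B j) := fun j => Real.log_nonneg (hB j)
  have hl2 : Real.log 2 ≤ 1 := by
    have := Real.log_two_lt_d9; linarith
  have hl20 : 0 < Real.log 2 := Real.log_pos (by norm_num)
  -- bound for `F`
  have bF : ∀ m : J →₀ ℕ, |F m| ≤ Real.exp (C1 + ∑ j, ((m j : ℝ) * (Real.log (B j) + 2)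
      - cr * xl (m j))) := by
    intro m
    by_cases hm : F m = 0
    · rw [hm, abs_zero]; exact (Real.exp_pos _).le
    set r : J → ℝ := fun j => min (Real.sqrt ((m j : ℝ) / (2 * B j))) (Real.exp (cr * ell j))
      with hr
    have hr0 : ∀ j, 0 ≤ r j := fun j => le_min (Real.sqrt_nonneg _) (Real.exp_pos _).le
    have hr1 : ∀ j, r j ≤ Real.exp (cr * ell j) := fun j => min_le_right _ _
    have hr2 : ∀ j, B j * r j ^ 2 ≤ (m j : ℝ) / 2 := by
      intro j
      have h1 : r j ^ 2 ≤ (m j : ℝ) / (2 * B j) := by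
        have h2 : r j ≤ Real.sqrt ((m j : ℝ) / (2 * B j)) := min_le_left _ _
        calc r j ^ 2 ≤ Real.sqrt ((m j : ℝ) / (2 * B j)) ^ 2 := pow_le_pow_left₀ (hr0 j) h2 2
          _ = (m j : ℝ) / (2 * B j) := Real.sq_sqrt (by have := hBpos j; positivity)
      calc B j * r j ^ 2 ≤ B j * ((m j : ℝ) / (2 * B j)) :=
            mul_le_mul_of_nonneg_left h1 (hBpos j).le
        _ = (m j : ℝ) / 2 := by have := (hBpos j).ne'; field_simp
    have hrb := radius_bound (f := F m) (C := C1) (cr := cr) (r := r)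
      (d := fun j => (m j : ℝ) / 2) (g := fun j => Real.log (B j) + 1) m ?_ ?_ ?_
    · refine hrb.trans (Real.exp_le_exp.mpr ?_)
      refine add_le_add le_rfl (Finset.sum_le_sum fun j _ => ?_)
      have : (0 : ℝ) ≤ m j := Nat.cast_nonneg _
      nlinarith
    · intro j hj
      have : (0 : ℝ) < m j := by exact_mod_cast Nat.pos_of_ne_zero hj
      exact lt_min (Real.sqrt_pos.mpr (div_pos this (by have := hBpos j; positivity)))
        (Real.exp_pos _)
    · refine (hF1 r hr0 hr1 m).trans (Real.exp_le_exp.mpr ?_)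
      exact add_le_add le_rfl (Finset.sum_le_sum fun j _ => hr2 j)
    · intro j hj
      have hmj : (0 : ℝ) < m j := by exact_mod_cast Nat.pos_of_ne_zero hj
      have hmj1 : (1 : ℝ) ≤ m j := by exact_mod_cast Nat.pos_of_ne_zero hj
      have hlm : 0 ≤ Real.log (m j) := Real.log_nonneg hmj1
      have hlmn : Real.log (m j) ≤ ell j := by
        have := Real.log_le_log hmj (hFn m hm j)
        rwa [Real.log_exp] at this
      have hrr : r j = min (Real.sqrt ((m j : ℝ) / (2 * B j))) (Real.exp (cr * ell j)) := rfl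
      rcases min_choice (Real.sqrt ((m j : ℝ) / (2 * B j))) (Real.exp (cr * ell j)) with h | h
      · rw [hrr, h, Real.log_sqrt (by have := hBpos j; positivity),
          Real.log_div hmj.ne' (by have := hBpos j; positivity),
          Real.log_mul two_ne_zero (hBpos j).ne']
        have := hlB j
        nlinarith
      · rw [hrr, h, Real.log_exp]
        have := hlB j
        nlinarith
  -- bound for `E`
  have bE : ∀ u : J →₀ ℕ, |Ex T (fun m => -W m) u| ≤
      Real.exp (0 + ∑ j, ((u j : ℝ) * (Real.log (B j) + 2) - cr * xl (u j))) := by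
    intro u
    set r : J → ℝ := fun j => Real.sqrt (u j : ℝ) / (2 * B j) with hr
    have hr0 : ∀ j, 0 ≤ r j := fun j => div_nonneg (Real.sqrt_nonneg _)
      (by have := hBpos j; positivity)
    have hsq : ∀ j, Real.sqrt (u j : ℝ) ≤ u j := by
      intro j
      rcases Nat.eq_zero_or_pos (u j) with h | h
      · simp [h]
      · have h1 : (1 : ℝ) ≤ u j := by exact_mod_cast h
        rw [Real.sqrt_le_left (by linarith)]
        nlinarith
    have hr2 : ∀ j, B j * (r j + r j ^ 2) ≤ (u j : ℝ) * (3 / 4) := by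
      intro j
      have hb := hB j
      have hbp := hBpos j
      have e1 : B j * (r j + r j ^ 2) = Real.sqrt (u j : ℝ) / 2 + (u j : ℝ) / (4 * B j) := by
        have h2 : r j ^ 2 = (u j : ℝ) / (4 * B j ^ 2) := by
          rw [hr]
          simp only
          rw [div_pow, Real.sq_sqrt (Nat.cast_nonneg _)]
          ring
        rw [h2, hr]
        simp only
        field_simp
      rw [e1]
      have h3 : (u j : ℝ) / (4 * B j) ≤ (u j : ℝ) / 4 := by
        refine div_le_div_of_nonneg_left (Nat.cast_nonneg _) (by norm_num) (by linarith)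
      linarith [hsq j]
    have hrb := radius_bound (f := Ex T (fun m => -W m) u) (C := 0) (cr := cr) (r := r)
      (d := fun j => (u j : ℝ) * (3 / 4)) (g := fun j => Real.log (B j) + 1) u ?_ ?_ ?_
    · refine hrb.trans (Real.exp_le_exp.mpr ?_)
      refine add_le_add le_rfl (Finset.sum_le_sum fun j _ => ?_)
      have : (0 : ℝ) ≤ u j := Nat.cast_nonneg _
      nlinarith
    · intro j hj
      have : (0 : ℝ) < u j := by exact_mod_cast Nat.pos_of_ne_zero hj
      exact div_pos (Real.sqrt_pos.mpr this) (by have := hBpos j; positivity)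
    · have h1 := sum_abs_Ex_le hT0 (fun m => -W m) hr0 {u}
      rw [Finset.sum_singleton] at h1
      refine h1.trans (Real.exp_le_exp.mpr ?_)
      have h2 := hT r hr0
      simp only [abs_neg]
      refine h2.trans ?_
      rw [zero_add]
      exact Finset.sum_le_sum fun j _ => hr2 j
    · intro j hj
      have huj : (0 : ℝ) < u j := by exact_mod_cast Nat.pos_of_ne_zero hj
      have huj1 : (1 : ℝ) ≤ u j := by exact_mod_cast Nat.pos_of_ne_zero hj
      have hlu : 0 ≤ Real.log (u j) := Real.log_nonneg huj1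
      have hrr : r j = Real.sqrt (u j : ℝ) / (2 * B j) := rfl
      rw [hrr, Real.log_div (Real.sqrt_pos.mpr huj).ne' (by have := hBpos j; positivity),
        Real.log_sqrt huj.le, Real.log_mul two_ne_zero (hBpos j).ne']
      nlinarith
  -- convolution
  unfold Xq
  refine (Finset.abs_sum_le_sum_abs _ _).trans ?_
  have hterm : ∀ x ∈ HasAntidiagonal.antidiagonal a,
      |F x.1 * Ex T (fun m => -W m) x.2|
        ≤ Real.exp (C1 + ∑ j, ((a j : ℝ) * (Real.log (B j) + 3) - cr * xl (a j))) := by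
    intro x hx
    rw [HasAntidiagonal.mem_antidiagonal] at hx
    rw [abs_mul]
    refine (mul_le_mul (bF x.1) (bE x.2) (abs_nonneg _) (Real.exp_pos _).le).trans ?_
    rw [← Real.exp_add]
    refine Real.exp_le_exp.mpr ?_
    rw [zero_add, add_assoc, ← Finset.sum_add_distrib]
    refine add_le_add le_rfl (Finset.sum_le_sum fun j _ => ?_)
    have h1 := le_xl_add (x.1 j) (x.2 j)
    have h2 : a j = x.1 j + x.2 j := by rw [← hx]; rfl
    rw [h2]
    push_cast
    have h3 : (0 : ℝ) ≤ x.1 j := Nat.cast_nonneg _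
    have h4 : (0 : ℝ) ≤ x.2 j := Nat.cast_nonneg _
    have h5 := mul_le_mul_of_nonneg_left h1 hcr0.le
    have h6 : cr * (((x.1 j : ℝ) + x.2 j) * Real.log 2) ≤ (x.1 j : ℝ) + x.2 j := by
      have h7 : 0 ≤ (x.1 j : ℝ) + x.2 j := by linarith
      have h8 : ((x.1 j : ℝ) + x.2 j) * Real.log 2 ≤ (x.1 j : ℝ) + x.2 j := by nlinarith
      have h9 : 0 ≤ ((x.1 j : ℝ) + x.2 j) * Real.log 2 := by positivity
      nlinarith
    nlinarith
  refine (Finset.sum_le_card_nsmul _ _ _ hterm).trans ?_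
  rw [nsmul_eq_mul]
  refine (mul_le_mul_of_nonneg_right (card_antidiagonal_le a) (Real.exp_pos _).le).trans ?_
  rw [← Real.exp_add]
  refine Real.exp_le_exp.mpr ?_
  rw [add_left_comm, ← Finset.sum_add_distrib]
  refine add_le_add le_rfl (Finset.sum_le_sum fun j _ => ?_)
  have : (0 : ℝ) ≤ a j := Nat.cast_nonneg _
  nlinarith

/-- the interpolation theorem -/
theorem interp (F W : (J →₀ ℕ) → ℝ) (S T : Finset (J →₀ ℕ)) (b0 : ℕ) (ell B : J → ℝ)
    (C1 k1 c2 c3 cr ph : ℝ)
    (hF0 : F 0 = 1) (hFS : ∀ a, a ∉ S → F a = 0)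
    (hFn : ∀ a : J →₀ ℕ, F a ≠ 0 → ∀ j, (a j : ℝ) ≤ Real.exp (ell j))
    (hE : ∀ a : J →₀ ℕ, a.degree ≤ b0 → (a.degree : ℝ) * F a
      = ∑ x ∈ HasAntidiagonal.antidiagonal a, (x.1.degree : ℝ) * W x.1 * F x.2)
    (hT0 : 0 ∉ T)
    (hF1 : ∀ r : J → ℝ, (∀ j, 0 ≤ r j) → (∀ j, r j ≤ Real.exp (cr * ell j)) →
      ∀ a : J →₀ ℕ, |F a| * mo r a ≤ Real.exp (C1 + ∑ j, B j * r j ^ 2))
    (hT : ∀ r : J → ℝ, (∀ j, 0 ≤ r j) →
      ∑ m ∈ T, |W m| * mo r m ≤ ∑ j, B j * (r j + r j ^ 2))
    (hD : ∀ m : J →₀ ℕ, m ≠ 0 → m ∉ T → m.degree ≤ b0 →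
      |W m| ≤ Real.exp (k1 * Lf m - c2 * lf ell m))
    (hB : ∀ j, 1 ≤ B j) (hC1 : 0 ≤ C1)
    (hcr0 : 0 < cr) (hcr : cr ≤ 1 / 2) (hk1 : 0 ≤ k1) (hph0 : 0 ≤ ph) (hph1 : ph ≤ 1)
    (hph : ph * k1 ≤ (1 - ph) * cr)
    (hs1 : ∑ j, Real.exp (-((c2 - c3) * ell j)) ≤ 1 / 4)
    (hs2 : ∑ j, Real.exp (Real.log (B j) + 4 - ph * c3 * ell j) ≤ Real.exp (-C1) / 32)
    (hs3 : C1 + ∑ j, Real.exp ((Real.log (B j) + 6) / cr) + Fintype.card J + 3 ≤ b0) :
    1 / 2 * Real.exp (-∑ m ∈ T, |W m|) ≤ ∑ a ∈ S, F a := by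
  classical
  have hlB : ∀ j, 0 ≤ Real.log (B j) := fun j => Real.log_nonneg (hB j)
  set X := Xq T F W with hXdef
  have hX0 : X 0 = 1 := Xq_zero hF0
  -- low orders
  have hlow : ∀ a : J →₀ ℕ, a.degree ≤ b0 → |X a| ≤ Real.exp (k1 * Lf a - c3 * lf ell a) := by
    intro a ha
    refine bound_low (V := fun m => if m ∈ T then 0 else W m) (c2 := c2) hX0 ?_ hk1 ?_ hs1
      a.degree a rfl ha
    · intro b hb
      rw [hXdef, euler_Xq hT0 hE b hb]
      refine Finset.sum_congr rfl fun x _ => ?_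
      split_ifs <;> simp
    · intro m hm hmb
      by_cases hmT : m ∈ T
      · simp only [if_pos hmT, abs_zero]; exact (Real.exp_pos _).le
      · simp only [if_neg hmT]; exact hD m hm hmT hmb
  have hhigh : ∀ a : J →₀ ℕ,
      |X a| ≤ Real.exp (C1 + ∑ j, ((a j : ℝ) * (Real.log (B j) + 4) - cr * xl (a j))) :=
    fun a => bound_high hT0 hFn hF1 hT hB hcr0 hcr a
  -- geometric mean
  set y : J → ℝ := fun j => Real.exp (Real.log (B j) + 4 - ph * c3 * ell j) with hy
  have hmid : ∀ a : J →₀ ℕ, a.degree ≤ b0 → |X a| ≤ Real.exp C1 * mo y a := by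
    intro a ha
    have h1 := hlow a ha
    have h2 := hhigh a
    set p := k1 * Lf a - c3 * lf ell a with hp
    set q := C1 + ∑ j, ((a j : ℝ) * (Real.log (B j) + 4) - cr * xl (a j)) with hq
    have h3 : |X a| ≤ Real.exp (ph * p + (1 - ph) * q) := by
      rcases le_total p q with hpq | hpq
      · refine h1.trans (Real.exp_le_exp.mpr ?_)
        nlinarith
      · refine h2.trans (Real.exp_le_exp.mpr ?_)
        nlinarith
    refine h3.trans ?_
    have h4 : mo y a = Real.exp (∑ j, (a j : ℝ) * (Real.log (B j) + 4 - ph * c3 * ell j)) := by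
      unfold mo
      rw [Real.exp_sum]
      refine Finset.prod_congr rfl fun j _ => ?_
      rw [hy, Real.exp_nat_mul]
    rw [h4, ← Real.exp_add]
    refine Real.exp_le_exp.mpr ?_
    have h5 : ∑ j, (a j : ℝ) * (Real.log (B j) + 4 - ph * c3 * ell j)
        = (∑ j, (a j : ℝ) * (Real.log (B j) + 4)) - ph * c3 * lf ell a := by
      unfold lf
      rw [Finset.mul_sum, ← Finset.sum_sub_distrib]
      refine Finset.sum_congr rfl fun j _ => ?_
      ring
    have h6 : q = C1 + (∑ j, (a j : ℝ) * (Real.log (B j) + 4)) - cr * Lf a := by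
      rw [hq, Finset.sum_sub_distrib]
      unfold Lf
      rw [Finset.mul_sum]
      ring
    have h7 : 0 ≤ ∑ j, (a j : ℝ) * (Real.log (B j) + 4) :=
      Finset.sum_nonneg fun j _ => mul_nonneg (Nat.cast_nonneg _) (by linarith [hlB j])
    have h8 : 0 ≤ Lf a := Finset.sum_nonneg fun j _ => xl_nonneg _
    rw [h5, h6, hp]
    have h9 : (ph * k1 - (1 - ph) * cr) * Lf a ≤ 0 :=
      mul_nonpos_of_nonpos_of_nonneg (by linarith) h8
    have h10 : 0 ≤ ph * C1 := mul_nonneg hph0 hC1
    have h11 : 0 ≤ ph * ∑ j, (a j : ℝ) * (Real.log (B j) + 4) := mul_nonneg hph0 h7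
    nlinarith
  -- high orders
  set M : ℝ := ∑ j, Real.exp ((Real.log (B j) + 6) / cr) with hM
  have hbig : ∀ a : J →₀ ℕ, b0 < a.degree →
      |X a| ≤ Real.exp (C1 + M - b0) * mo (fun _ => Real.exp (-1)) a := by
    intro a ha
    refine (hhigh a).trans ?_
    have h4 : mo (fun _ : J => Real.exp (-1)) a = Real.exp (-(a.degree : ℝ)) := by
      unfold mo
      rw [Finsupp.degree_eq_sum]
      push_cast
      rw [← Finset.sum_neg_distrib, Real.exp_sum]
      refine Finset.prod_congr rfl fun j _ => ?_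
      rw [← Real.exp_nat_mul]
      congr 1; ring
    rw [h4, ← Real.exp_add]
    refine Real.exp_le_exp.mpr ?_
    have h5 : ∑ j, ((a j : ℝ) * (Real.log (B j) + 4) - cr * xl (a j))
        ≤ ∑ j, (Real.exp ((Real.log (B j) + 6) / cr) - 2 * (a j : ℝ)) := by
      refine Finset.sum_le_sum fun j _ => ?_
      have := sup_order (G := Real.log (B j) + 6) hcr0 (by linarith) (a j)
      nlinarith
    have h6 : (a.degree : ℝ) = ∑ j, (a j : ℝ) := by
      rw [Finsupp.degree_eq_sum]; push_cast; rfl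
    have h8 : ∑ j, (Real.exp ((Real.log (B j) + 6) / cr) - 2 * (a j : ℝ))
        = M - 2 * (a.degree : ℝ) := by
      rw [Finset.sum_sub_distrib, ← Finset.mul_sum, h6]
    rw [h8] at h5
    have h7 : (b0 : ℝ) ≤ a.degree := by exact_mod_cast ha.le
    linarith
  -- the total mass off zero
  have htot : ∀ A : Finset (J →₀ ℕ), 0 ∉ A → ∑ a ∈ A, |X a| ≤ 1 / 4 := by
    intro A hA
    rw [← Finset.sum_filter_add_sum_filter_not A (fun a : J →₀ ℕ => a.degree ≤ b0)]
    have h1 : ∑ a ∈ A.filter (fun a : J →₀ ℕ => a.degree ≤ b0), |X a| ≤ 1 / 16 := by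
      have e1 : ∑ a ∈ A.filter (fun a : J →₀ ℕ => a.degree ≤ b0), |X a|
          ≤ ∑ a ∈ A.filter (fun a : J →₀ ℕ => a.degree ≤ b0), Real.exp C1 * mo y a :=
        Finset.sum_le_sum fun a ha => hmid a (Finset.mem_filter.mp ha).2
      refine e1.trans ?_
      rw [← Finset.mul_sum]
      have hexp : Real.exp (-C1) ≤ 1 := by
        rw [Real.exp_le_one_iff]; linarith
      have e2 := sum_mo_le (y := y) (fun j => (Real.exp_pos _).le) hs2 (by linarith)
        (A.filter (fun a : J →₀ ℕ => a.degree ≤ b0)) (by simp [hA])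
      have e3 : Real.exp C1 * Real.exp (-C1) = 1 := by rw [← Real.exp_add]; simp
      have e4 := mul_le_mul_of_nonneg_left e2 (Real.exp_pos C1).le
      nlinarith
    have h2 : ∑ a ∈ A.filter (fun a : J →₀ ℕ => ¬ a.degree ≤ b0), |X a| ≤ 1 / 8 := by
      have e1 : ∑ a ∈ A.filter (fun a : J →₀ ℕ => ¬ a.degree ≤ b0), |X a|
          ≤ ∑ a ∈ A.filter (fun a : J →₀ ℕ => ¬ a.degree ≤ b0),
            Real.exp (C1 + M - b0) * mo (fun _ => Real.exp (-1)) a :=
        Finset.sum_le_sum fun a ha => hbig a (not_le.mp (Finset.mem_filter.mp ha).2)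
      refine e1.trans ?_
      rw [← Finset.mul_sum]
      have hexp1 : Real.exp (-1) < 1 := by rw [Real.exp_lt_one_iff]; norm_num
      have e2 := sum_mo_le_prod (y := fun _ : J => Real.exp (-1)) (fun j => (Real.exp_pos _).le)
        (fun j => hexp1) (A.filter (fun a : J →₀ ℕ => ¬ a.degree ≤ b0))
      have hlin : (2 : ℝ) ≤ Real.exp 1 := by
        have := Real.add_one_le_exp (1 : ℝ); linarith
      have e3 : (1 - Real.exp (-1))⁻¹ ≤ Real.exp 1 := by
        have h5 : Real.exp 1 * Real.exp (-1) = 1 := by rw [← Real.exp_add]; simp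
        rw [inv_le_comm₀ (by linarith) (Real.exp_pos _), ← Real.exp_neg]
        have h6 := Real.exp_pos (-1)
        nlinarith
      have e4 : ∏ _j : J, (1 - Real.exp (-1))⁻¹ ≤ Real.exp (Fintype.card J) := by
        rw [Finset.prod_const, Finset.card_univ]
        refine (pow_le_pow_left₀ (by rw [inv_nonneg]; linarith) e3 _).trans (le_of_eq ?_)
        rw [← Real.exp_nat_mul, mul_one]
      have e5 : Real.exp (C1 + M - b0) * Real.exp (Fintype.card J) ≤ 1 / 8 := by
        rw [← Real.exp_add]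
        have h7 : Real.exp (C1 + M - b0 + Fintype.card J) ≤ Real.exp (-3) :=
          Real.exp_le_exp.mpr (by linarith)
        refine h7.trans ?_
        have h8 : (8 : ℝ) ≤ Real.exp 3 := by
          have h9 : Real.exp 3 = Real.exp 1 ^ 3 := by rw [← Real.exp_nat_mul]; norm_num
          rw [h9]
          calc (8 : ℝ) = 2 ^ 3 := by norm_num
            _ ≤ Real.exp 1 ^ 3 := pow_le_pow_left₀ (by norm_num) hlin 3
        rw [Real.exp_neg, one_div]
        exact inv_anti₀ (by norm_num) h8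
      exact (mul_le_mul_of_nonneg_left (e2.trans e4) (Real.exp_pos _).le).trans e5
    linarith
  have hsumX : Summable fun a => |X a| := by
    refine summable_of_sum_le (c := 2) (fun a => abs_nonneg _) fun A => ?_
    have h1 : ∑ a ∈ A, |X a| ≤ ∑ a ∈ insert 0 (A.erase 0), |X a| :=
      Finset.sum_le_sum_of_subset_of_nonneg (by
        intro a ha
        by_cases h : a = 0
        · rw [h]; exact Finset.mem_insert_self _ _
        · exact Finset.mem_insert_of_mem (Finset.mem_erase.mpr ⟨h, ha⟩))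
        fun a _ _ => abs_nonneg _
    rw [Finset.sum_insert (Finset.notMem_erase _ _), hX0, abs_one] at h1
    have := htot (A.erase 0) (Finset.notMem_erase _ _)
    linarith
  have hsumX' : Summable X := hsumX.of_abs
  have hXge : 3 / 4 ≤ ∑' a, X a := by
    have h1 := hsumX'.sum_add_tsum_subtype_compl {0}
    rw [Finset.sum_singleton, hX0] at h1
    have h2 : |∑' x : {x // x ∉ ({0} : Finset (J →₀ ℕ))}, X x| ≤ 1 / 4 := by
      have hs : Summable fun x : {x // x ∉ ({0} : Finset (J →₀ ℕ))} => |X x| :=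
        hsumX.subtype _
      refine (Real.norm_eq_abs _ ▸ norm_tsum_le_tsum_norm (by simpa [Real.norm_eq_abs] using hs)).trans ?_
      refine hs.tsum_le_of_sum_le fun A => ?_
      have h3 := htot (A.map (Function.Embedding.subtype _)) (by simp)
      rw [Finset.sum_map] at h3
      exact h3
    have h3 := neg_abs_le (∑' x : {x // x ∉ ({0} : Finset (J →₀ ℕ))}, X x)
    linarith
  -- the product formula
  have hsF : HasSum F (∑ a ∈ S, F a) := hasSum_sum_of_ne_finset_zero hFS
  have hsE := summable_abs_Ex hT0 (fun m => -W m)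
  have hsFa : Summable fun a => |F a| :=
    (hasSum_sum_of_ne_finset_zero (s := S) (fun a ha => by rw [hFS a ha, abs_zero])).summable
  have hprod : (∑' a, F a) * ∑' a, Ex T (fun m => -W m) a = ∑' a, X a := by
    refine hsF.summable.tsum_mul_tsum_eq_tsum_sum_antidiagonal hsE.of_abs ?_
    refine (hsFa.mul_of_nonneg hsE (fun _ => abs_nonneg _) (fun _ => abs_nonneg _)).of_norm_bounded
      fun x => ?_
    rw [Real.norm_eq_abs, abs_mul]
  rw [hsF.tsum_eq, tsum_Ex hT0, Finset.sum_neg_distrib] at hprod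
  have hfin : ∑ a ∈ S, F a = (∑' a, X a) * Real.exp (∑ m ∈ T, W m) := by
    rw [← hprod, mul_assoc, ← Real.exp_add]
    simp
  rw [hfin]
  have h1 : -∑ m ∈ T, |W m| ≤ ∑ m ∈ T, W m := by
    rw [← Finset.sum_neg_distrib]
    exact Finset.sum_le_sum fun m _ => neg_abs_le _
  have h2 := Real.exp_le_exp.mpr h1
  have h3 := Real.exp_pos (-∑ m ∈ T, |W m|)
  nlinarith

end Vale.Agent.P042.H384
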